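import Vale.Agent.P092.SR.Leg
import Vale.Agent.P092.H160.Bridge
import Vale.Agent.P092.H160.Main

/-!
P092, project B: the literal statements of the blocks (one `Prop` per block), over `SR/Defs.lean`.
-/

set_option linter.all false

open scoped InnerProductSpace
open Filter Topology ContinuousLinearMap MeasureTheory

namespace Vale.Agent.P092.SR

open Vale.Agent.P092.H160

/-- `SL_n(k)` modulo its centre. -/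
abbrev PSLk (n : ℕ) (k : Type) [Field k] : Type :=
  Matrix.SpecialLinearGroup (Fin n) k ⧸ Subgroup.center (Matrix.SpecialLinearGroup (Fin n) k)

/-! ### Groups -/

/-- [GF] -/
def GFStmt : Prop :=
  ∀ (n : ℕ) (k : Type) [NontriviallyNormedField k] [IsUltrametricDist k] [ProperSpace k],
    2 ≤ n → GoodGrp (PSLk n k)

/-- [ICC-TH] finite index subgroups `Θ` of `p⁻¹(U)` have infinite conjugation orbits on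
`Γ ∖ {1}`. -/
def IccThStmt : Prop :=
  ∀ {Γ H : Type} [Group Γ] [Group H] [TopologicalSpace H] (p : Γ →* H), GoodGrp H →
    Function.Injective p → DenseRange p → ∀ U : Subgroup H, IsOpen (U : Set H) →
    ∀ Θ : Subgroup Γ, Θ ≤ U.comap p → Θ.relIndex (U.comap p) ≠ 0 →
    ∀ h : Γ, h ≠ 1 → Set.Infinite {x : Γ | ∃ g ∈ Θ, x = g * h * g⁻¹}

/-- [IRR-ISO] irreducibility is transported by topological isomorphisms of the factors. -/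
def IrrIsoStmt : Prop :=
  ∀ {Γ G₁ G₂ H₁ H₂ : Type} [Group Γ] [Group G₁] [Group G₂] [Group H₁] [Group H₂]
    [TopologicalSpace G₁] [TopologicalSpace G₂] [TopologicalSpace H₁] [TopologicalSpace H₂]
    (p₁ : Γ →* G₁) (p₂ : Γ →* G₂) (ψ₁ : G₁ ≃ₜ* H₁) (ψ₂ : G₂ ≃ₜ* H₂), Irr p₁ p₂ →
    Irr (ψ₁.toMulEquiv.toMonoidHom.comp p₁) (ψ₂.toMulEquiv.toMonoidHom.comp p₂) ∧ Irr p₂ p₁

/-- the projection of `Γ ≤ SL_n(k₁) × SL_m(k₂)` to the first factor modulo the centre -/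
def pj₁ {n₁ n₂ : ℕ} {k₁ k₂ : Type} [Field k₁] [Field k₂]
    (Γ : Subgroup (Matrix.SpecialLinearGroup (Fin n₁) k₁ × Matrix.SpecialLinearGroup (Fin n₂) k₂)) :
    Γ →* Matrix.SpecialLinearGroup (Fin n₁) k₁ :=
  (MonoidHom.fst _ _).comp Γ.subtype

/-- the projection to the second factor -/
def pj₂ {n₁ n₂ : ℕ} {k₁ k₂ : Type} [Field k₁] [Field k₂]
    (Γ : Subgroup (Matrix.SpecialLinearGroup (Fin n₁) k₁ × Matrix.SpecialLinearGroup (Fin n₂) k₂)) :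
    Γ →* Matrix.SpecialLinearGroup (Fin n₂) k₂ :=
  (MonoidHom.snd _ _).comp Γ.subtype

/-- [PROJ-LAT] an ICC lattice with dense projections is irreducible in the sense of `Irr`, in
`PSL × PSL`. -/
def ProjLatStmt : Prop :=
  ∀ (n₁ n₂ : ℕ) (k₁ k₂ : Type) [NontriviallyNormedField k₁] [NontriviallyNormedField k₂]
    [IsUltrametricDist k₁] [IsUltrametricDist k₂] [ProperSpace k₁] [ProperSpace k₂]
    (Γ : Subgroup (Matrix.SpecialLinearGroup (Fin n₁) k₁ × Matrix.SpecialLinearGroup (Fin n₂) k₂)),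
    2 ≤ n₁ → 2 ≤ n₂ → H515.St.IsLattice Γ → DenseRange (pj₁ Γ) → DenseRange (pj₂ Γ) →
    (∀ g : Γ, g ≠ 1 → Set.Infinite {y : Γ | ∃ h, y = h * g * h⁻¹}) →
    Irr ((QuotientGroup.mk' (Subgroup.center _)).comp (pj₁ Γ))
      ((QuotientGroup.mk' (Subgroup.center _)).comp (pj₂ Γ))

/-! ### The model -/

section

variable {Γ Λ : Type} [Group Γ] [Group Λ]

/-- [MODEL] -/
def ModelStmt : Prop :=
  ∀ {Γ Λ : Type} [Group Γ] [Group Λ] (α : Γ →* (Ell2 Λ →L[ℂ] Ell2 Λ)), Frame α →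
    Tri (VV α) (RR₁ α) (RR₂ α) (fun _ : Unit => (dl ((1 : Λ), (1 : Λ)) : Ell2 (Λ × Λ)))

/-- [COMM] the commutants of the target representations -/
def CommStmt : Prop :=
  ∀ {Γ Λ : Type} [Group Γ] [Group Λ] (α : Γ →* (Ell2 Λ →L[ℂ] Ell2 Λ)), Frame α →
    ∀ x : Ell2 (Λ × Λ) →L[ℂ] Ell2 (Λ × Λ),
      ((∀ g, x * RR₁ α g = RR₁ α g * x) ↔
        ∀ s : Λ, x * tens (rho s) 1 = tens (rho s) 1 * x) ∧
      ((∀ g, x * RR₂ α g = RR₂ α g * x) ↔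
        ∀ s : Λ, x * tens 1 (rho s) = tens 1 (rho s) * x)

/-- [ERG] ergodicity (the torsion-free form) -/
def ErgStmt : Prop :=
  ∀ {Γ Λ : Type} [Group Γ] [Group Λ] (α : Γ →* (Ell2 Λ →L[ℂ] Ell2 Λ)), Frame α →
    (∀ s : Λ, s ≠ 1 → ∀ n : ℕ, 0 < n → s ^ n ≠ 1) → ∀ Θ : Subgroup Γ,
    (∀ h : Γ, h ≠ 1 → Set.Infinite {x : Γ | ∃ g ∈ Θ, x = g * h * g⁻¹}) →
    ∀ x : Ell2 (Λ × Λ) →L[ℂ] Ell2 (Λ × Λ),
      (∀ s t : Λ, x * tens (rho s) (rho t) = tens (rho s) (rho t) * x) →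
      (∀ g ∈ Θ, x * VV α g = VV α g * x) → ∃ c : ℂ, x = c • (1 : Ell2 (Λ × Λ) →L[ℂ] Ell2 (Λ × Λ))

end

/-- [FLIP] -/
def FlipStmt : Prop :=
  ∀ {Γ Λ : Type} [Group Γ] [Group Λ] (α : Γ →* (Ell2 Λ →L[ℂ] Ell2 Λ)), Frame α →
    ∃ J F : Ell2 (Λ × Λ) → Ell2 (Λ × Λ), Sym3 (VV α) (RR₁ α) (RR₂ α) J F

/-! ### Abstract operator blocks -/

/-- [A1] target ergodicity turns summability at one vector into `∑ T x T* = c · 1`. -/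
def A1Stmt : Prop :=
  ∀ {Γ H H' ℋ : Type} [Group Γ] [Group H] [Group H'] [NormedAddCommGroup ℋ]
    [InnerProductSpace ℂ ℋ] [CompleteSpace ℋ] (pr : Γ →* H) (pr' : Γ →* H')
    (S T : Γ →* (ℋ →L[ℂ] ℋ)) (sc : Set (ℋ →L[ℂ] ℋ)), (∀ g, adjoint (S g) = S g⁻¹) →
    (∀ g, adjoint (T g) = T g⁻¹) → (∀ g h, S g * T h = T h * S g) →
    (∀ a ∈ sc, ∀ g, a * T g = T g * a) → ∀ K' : Subgroup H,
    (∀ x, Qs pr pr' S T sc K' ⊤ x → ∃ c : ℂ, x = c • (1 : ℋ →L[ℂ] ℋ)) → ∀ K : Subgroup H',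
    ∀ x, Qs pr pr' S T sc K' K x → 0 ≤ x →
    (∃ ζ : ℋ, ζ ≠ 0 ∧
      Summable fun q : Γ ⧸ K.comap pr' => (⟪T (q.out)⁻¹ ζ, x (T (q.out)⁻¹ ζ)⟫_ℂ).re) →
    ∃ c, IntR pr' T K x c

/-- [TR] the trace property of the sum over the target -/
def TrStmt : Prop :=
  ∀ {ι Γ ℋ : Type} [Fintype ι] [Group Γ] [NormedAddCommGroup ℋ] [InnerProductSpace ℂ ℋ]
    [CompleteSpace ℋ] (V R₁ R₂ : Γ →* (ℋ →L[ℂ] ℋ)) (ξ : ι → ℋ), Tri V R₁ R₂ ξ →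
    ∀ (Θ : Subgroup Γ) (x : ℋ →L[ℂ] ℋ), (∀ g ∈ Θ, x * R₁ g = R₁ g * x) →
    (∀ g, x * R₂ g = R₂ g * x) → ∀ c : ℝ,
    HasSum (fun p : ι × (Γ ⧸ Θ) => ‖x (R₁ (p.2.out)⁻¹ (ξ p.1))‖ ^ 2) c →
    HasSum (fun p : ι × (Γ ⧸ Θ) => ‖adjoint x (R₁ (p.2.out)⁻¹ (ξ p.1))‖ ^ 2) c

/-- [SWAPLEG] the two legs play the same role (uses the unitary `F` only for the source side
statements; here: the frame with the legs exchanged). -/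
def SwapLegStmt : Prop :=
  ∀ {ι Γ ℋ : Type} [Fintype ι] [Group Γ] [NormedAddCommGroup ℋ] [InnerProductSpace ℂ ℋ]
    [CompleteSpace ℋ] (V R₁ R₂ : Γ →* (ℋ →L[ℂ] ℋ)) (ξ : ι → ℋ), Tri V R₁ R₂ ξ → Tri V R₂ R₁ ξ

/-- [MATCH] a target-finite element for the places `(1, j)` and a source-finite element for the
places `(2, j)` cannot both exist (`q` is the place `j` of the target). -/
def MatchStmt : Prop :=
  ∀ {ι Γ G₁ G₂ H ℋ : Type} [Fintype ι] [Group Γ] [Group G₁] [Group G₂] [Group H]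
    [TopologicalSpace G₁] [TopologicalSpace G₂] [TopologicalSpace H] [NormedAddCommGroup ℋ]
    [InnerProductSpace ℂ ℋ] [CompleteSpace ℋ] (V R₁ R₂ : Γ →* (ℋ →L[ℂ] ℋ)) (ξ : ι → ℋ)
    (p₁ : Γ →* G₁) (p₂ : Γ →* G₂) (q : Γ →* H), Tri V R₁ R₂ ξ → GoodGrp G₁ → GoodGrp G₂ →
    GoodGrp H → Irr p₁ p₂ →
    ∀ (K₁ : Subgroup G₁) (K₂ : Subgroup G₂) (L₁ L₂ : Subgroup H), COS K₁ → COS K₂ → COS L₁ →
    COS L₂ → ∀ a b, Qs p₁ q V R₁ (Set.range R₂) K₁ L₁ a → Qs p₂ q V R₁ (Set.range R₂) K₂ L₂ b →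
    0 ≤ a → 0 ≤ b → ∀ c d, IntR q R₁ L₁ a c → IntR p₂ V K₂ b d → a = 0 ∨ b = 0

/-- Output of the analysis: a nonzero positive operator at the level of compact open subgroups which
is integrable over the target. -/
def FinN {Γ H H' ℋ : Type} [Group Γ] [Group H] [Group H'] [TopologicalSpace H]
    [TopologicalSpace H'] [NormedAddCommGroup ℋ] [InnerProductSpace ℂ ℋ] [CompleteSpace ℋ]
    (pr : Γ →* H) (pr' : Γ →* H') (S T : Γ →* (ℋ →L[ℂ] ℋ)) (sc : Set (ℋ →L[ℂ] ℋ)) : Prop :=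
  ∃ (K' : Subgroup H) (K : Subgroup H'), COS K' ∧ COS K ∧ ∃ x, Qs pr pr' S T sc K' K x ∧
    0 ≤ x ∧ x ≠ 0 ∧ ∃ ζ : ℋ, ζ ≠ 0 ∧
      Summable fun q : Γ ⧸ K.comap pr' => (⟪T (q.out)⁻¹ ζ, x (T (q.out)⁻¹ ζ)⟫_ℂ).re

/-- The same with the conclusion of [A1]: a nonzero positive integrable operator. -/
def FinI {Γ H H' ℋ : Type} [Group Γ] [Group H] [Group H'] [TopologicalSpace H]
    [TopologicalSpace H'] [NormedAddCommGroup ℋ] [InnerProductSpace ℂ ℋ] [CompleteSpace ℋ]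
    (pr : Γ →* H) (pr' : Γ →* H') (S T : Γ →* (ℋ →L[ℂ] ℋ)) (sc : Set (ℋ →L[ℂ] ℋ)) : Prop :=
  ∃ (K' : Subgroup H) (K : Subgroup H'), COS K' ∧ COS K ∧ ∃ x, Qs pr pr' S T sc K' K x ∧
    0 ≤ x ∧ x ≠ 0 ∧ ∃ c, IntR pr' T K x c

/-- [PASS] passage to the quotient by finite centres -/
def PassStmt : Prop :=
  ∀ {Γ H H' ℋ : Type} [Group Γ] [Group H] [Group H'] [TopologicalSpace H]
    [TopologicalSpace H'] [IsTopologicalGroup H] [IsTopologicalGroup H'] [NormedAddCommGroup ℋ]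
    [InnerProductSpace ℂ ℋ] [CompleteSpace ℋ]
    (pr : Γ →* H) (pr' : Γ →* H') (S T : Γ →* (ℋ →L[ℂ] ℋ)) (sc : Set (ℋ →L[ℂ] ℋ))
    (Z : Subgroup H) (Z' : Subgroup H') [Z.Normal] [Z'.Normal] [Finite Z] [Finite Z'],
    (∀ g, adjoint (S g) = S g⁻¹) → (∀ g, adjoint (T g) = T g⁻¹) →
    (∀ g h, S g * T h = T h * S g) → (∀ a ∈ sc, ∀ g, a * S g = S g * a) →
    (∀ a ∈ sc, ∀ g, a * T g = T g * a) → FinI pr pr' S T sc →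
    FinI ((QuotientGroup.mk' Z).comp pr) ((QuotientGroup.mk' Z').comp pr') S T sc

/-- [FIN] = [ENG] + [COEF] + [HM]: the analysis, first leg. -/
def FinStmt : Prop :=
  ∀ (n₁ n₂ : ℕ) (k₁ k₂ : Type) [NontriviallyNormedField k₁] [NontriviallyNormedField k₂]
    [IsUltrametricDist k₁] [IsUltrametricDist k₂] [ProperSpace k₁] [ProperSpace k₂]
    (Γ : Subgroup (Matrix.SpecialLinearGroup (Fin n₁) k₁ × Matrix.SpecialLinearGroup (Fin n₂) k₂)),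
    2 ≤ n₁ → 2 ≤ n₂ → H515.St.IsLattice Γ → DenseRange (pj₁ Γ) → DenseRange (pj₂ Γ) →
    (∀ g : Γ, g ≠ 1 → Set.Infinite {y : Γ | ∃ h, y = h * g * h⁻¹}) →
    ∀ {Λ : Type} [Group Λ] (α : Γ →* (Ell2 Λ →L[ℂ] Ell2 Λ)), Frame α →
      (FinN (pj₁ Γ) (pj₁ Γ) (VV α) (RR₁ α) (Set.range (RR₂ α)) ∨
        FinN (pj₁ Γ) (pj₂ Γ) (VV α) (RR₁ α) (Set.range (RR₂ α))) ∧
      (FinN (pj₂ Γ) (pj₁ Γ) (VV α) (RR₁ α) (Set.range (RR₂ α)) ∨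
        FinN (pj₂ Γ) (pj₂ Γ) (VV α) (RR₁ α) (Set.range (RR₂ α)))

/-- [TA] Theorem A -/
def ThAStmt : Prop :=
  ∀ {Γ H H' ℋ : Type} [Group Γ] [Group H] [Group H'] [TopologicalSpace H] [TopologicalSpace H']
    [NormedAddCommGroup ℋ] [InnerProductSpace ℂ ℋ] [CompleteSpace ℋ] [Countable Γ]
    (pr : Γ →* H) (pr' : Γ →* H') (S T : Γ →* (ℋ →L[ℂ] ℋ)) (sc : Set (ℋ →L[ℂ] ℋ)),
    GoodGrp H → GoodGrp H' → Leg pr pr' S T sc →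
    ∃ (ψ : H' ≃ₜ* H) (P : Set H → (ℋ →L[ℂ] ℋ)),
      PFam pr (ψ.toMulEquiv.toMonoidHom.comp pr') S T sc P

/-- [C5] same leg, different places -/
def C5Stmt : Prop :=
  ∀ {ι Γ H₁ H₂ ℋ : Type} [Fintype ι] [Group Γ] [Group H₁] [Group H₂] [TopologicalSpace H₁]
    [TopologicalSpace H₂] [NormedAddCommGroup ℋ] [InnerProductSpace ℂ ℋ] [CompleteSpace ℋ]
    (V R₁ R₂ : Γ →* (ℋ →L[ℂ] ℋ)) (ξ : ι → ℋ) (p₁ q₁ : Γ →* H₁) (p₂ q₂ : Γ →* H₂),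
    Tri V R₁ R₂ ξ → GoodGrp H₁ → GoodGrp H₂ → Irr p₁ p₂ → Irr q₁ q₂ →
    ∀ (P₁ : Set H₁ → (ℋ →L[ℂ] ℋ)) (P₂ : Set H₂ → (ℋ →L[ℂ] ℋ)),
    PFam p₁ q₁ V R₁ (Set.range R₂) P₁ → PFam p₂ q₂ V R₁ (Set.range R₂) P₂ →
    ∀ C D, CO C → CO D → P₁ C * P₂ D = P₂ D * P₁ C

/-- [C6] different legs, different places; `q₂` is the other target place of leg 1, `r₁` the other
target place of leg 2. -/
def C6Stmt : Prop :=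
  ∀ {ι Γ H₁ H₂ ℋ : Type} [Fintype ι] [Group Γ] [Group H₁] [Group H₂] [TopologicalSpace H₁]
    [TopologicalSpace H₂] [NormedAddCommGroup ℋ] [InnerProductSpace ℂ ℋ] [CompleteSpace ℋ]
    (V R₁ R₂ : Γ →* (ℋ →L[ℂ] ℋ)) (ξ : ι → ℋ) (p₁ q₁ r₁ : Γ →* H₁) (p₂ q₂ r₂ : Γ →* H₂),
    Tri V R₁ R₂ ξ → GoodGrp H₁ → GoodGrp H₂ → Irr p₁ p₂ → Irr q₁ q₂ → Irr r₁ r₂ →
    ∀ (P₁ : Set H₁ → (ℋ →L[ℂ] ℋ)) (P₂ : Set H₂ → (ℋ →L[ℂ] ℋ)),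
    PFam p₁ q₁ V R₁ (Set.range R₂) P₁ → PFam p₂ r₂ V R₂ (Set.range R₁) P₂ →
    ∀ C D, CO C → CO D → P₁ C * P₂ D = P₂ D * P₁ C

/-- [C7] different legs, same place -/
def C7Stmt : Prop :=
  ∀ {ι Γ H₁ H₂ ℋ : Type} [Fintype ι] [Group Γ] [Group H₁] [Group H₂] [TopologicalSpace H₁]
    [TopologicalSpace H₂] [NormedAddCommGroup ℋ] [InnerProductSpace ℂ ℋ] [CompleteSpace ℋ]
    (V R₁ R₂ : Γ →* (ℋ →L[ℂ] ℋ)) (ξ : ι → ℋ) (p₁ q₁ r₁ : Γ →* H₁) (p₂ q₂ r₂ : Γ →* H₂),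
    Tri V R₁ R₂ ξ → GoodGrp H₁ → GoodGrp H₂ → Irr p₁ p₂ → Irr q₁ q₂ → Irr r₁ r₂ →
    ∀ (P Q : Set H₁ → (ℋ →L[ℂ] ℋ)),
    PFam p₁ q₁ V R₁ (Set.range R₂) P → PFam p₁ r₁ V R₂ (Set.range R₁) Q →
    ∀ C D, CO C → CO D → P C * Q D = Q D * P C

/-- [END] four commuting families give a unit vector `w` with `V g w ∈ ℂ • R₁ a R₂ b w`. -/
def EndStmt : Prop :=
  ∀ {Γ H₁ H₂ ℋ : Type} [Group Γ] [Group H₁] [Group H₂] [TopologicalSpace H₁]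
    [TopologicalSpace H₂] [NormedAddCommGroup ℋ] [InnerProductSpace ℂ ℋ] [CompleteSpace ℋ]
    (V R₁ R₂ : Γ →* (ℋ →L[ℂ] ℋ)) (ξ : Unit → ℋ) (p₁ q₁ r₁ : Γ →* H₁) (p₂ q₂ r₂ : Γ →* H₂),
    Tri V R₁ R₂ ξ → ‖ξ ()‖ = 1 → GoodGrp H₁ → GoodGrp H₂ → Irr p₁ p₂ → Irr q₁ q₂ → Irr r₁ r₂ →
    ∀ (P₁ Q₁ : Set H₁ → (ℋ →L[ℂ] ℋ)) (P₂ Q₂ : Set H₂ → (ℋ →L[ℂ] ℋ)),
    PFam p₁ q₁ V R₁ (Set.range R₂) P₁ → PFam p₂ q₂ V R₁ (Set.range R₂) P₂ →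
    PFam p₁ r₁ V R₂ (Set.range R₁) Q₁ → PFam p₂ r₂ V R₂ (Set.range R₁) Q₂ →
    (∀ C D, CO C → CO D → P₁ C * P₂ D = P₂ D * P₁ C) →
    (∀ C D, CO C → CO D → Q₁ C * Q₂ D = Q₂ D * Q₁ C) →
    (∀ C D, CO C → CO D → P₁ C * Q₁ D = Q₁ D * P₁ C) →
    (∀ C D, CO C → CO D → P₁ C * Q₂ D = Q₂ D * P₁ C) →
    (∀ C D, CO C → CO D → P₂ C * Q₁ D = Q₁ D * P₂ C) →
    (∀ C D, CO C → CO D → P₂ C * Q₂ D = Q₂ D * P₂ C) →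
    ∃ w : ℋ, ‖w‖ = 1 ∧ ∀ g, ∃ (a b : Γ) (z : ℂ), ‖z‖ = 1 ∧ V g w = z • R₁ a (R₂ b w)

/-- [HEIGHT] -/
def HeightStmt : Prop :=
  ∀ {Γ Λ : Type} [Group Γ] [Group Λ] (α : Γ →* (Ell2 Λ →L[ℂ] Ell2 Λ)), Frame α →
    ∀ w : Ell2 (Λ × Λ), ‖w‖ = 1 →
    (∀ g, ∃ (a b : Γ) (z : ℂ), ‖z‖ = 1 ∧ VV α g w = z • RR₁ α a (RR₂ α b w)) →
    ∃ c : ℝ, 0 < c ∧ ∀ g, c ≤ p4 α g

/-- The final theorem, version 1. -/
def SuperStmt : Prop :=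
  ∀ (n₁ n₂ : ℕ) (k₁ k₂ : Type) [NontriviallyNormedField k₁] [NontriviallyNormedField k₂]
    [IsUltrametricDist k₁] [IsUltrametricDist k₂] [ProperSpace k₁] [ProperSpace k₂]
    (Γ : Subgroup (Matrix.SpecialLinearGroup (Fin n₁) k₁ × Matrix.SpecialLinearGroup (Fin n₂) k₂)),
    2 ≤ n₁ → 2 ≤ n₂ → H515.St.IsLattice Γ → DenseRange (pj₁ Γ) → DenseRange (pj₂ Γ) →
    (∀ g : Γ, g ≠ 1 → Set.Infinite {y : Γ | ∃ h, y = h * g * h⁻¹}) →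
    ∀ {Λ : Type} [Group Λ], (∀ s : Λ, s ≠ 1 → ∀ n : ℕ, 0 < n → s ^ n ≠ 1) →
    ∀ θ : H160.St.StarIso Γ Λ, H160.St.Canonical θ

end Vale.Agent.P092.SR
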