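import Vale.Agent.P092.H515.RkDef

/-!
P092, project B (helper58): literal forms of the final statement of `ProductSuper`.
Only definitions; the hand-in states one of `FinalTF`, `Final1`, `FinalAll`, unfolded.

Draft of the claim for `FinalAll` (for `Final1` replace the sentence about `p` and the corner
definitions by StarIso, Canonical and t = 1; for `FinalTF` add: Λ torsion-free):

Proves: Let Γ be an ICC group with an injective homomorphism onto a lattice of SL_m(k)×SL_n(l), k,l
non-archimedean local fields, m,n≥2, whose projections to both factors are dense. If Λ is any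
countable ICC group, p a projection of M_r(L(Λ)) and θ: L(Γ)->pM_r(L(Λ))p a *-isomorphism, then
Tr⊗τ(p)=1 and θ is canonical; so L(Γ)^t≅L(Λ) only for t=1, Λ≅Γ. This applies to
Γ=SL_n(F_2[t,1/t]), n≥2.
Definitions: ICC: nontrivial conjugacy classes infinite; IsLattice: discrete, G/Γ has a finite
invariant Borel measure≠0; IrrLattice i: i injective, its image a lattice with dense projections;
PadicProductLattice: such ICC Γ; SuperAll: the conclusion; Ell2: l2; dl: δ_x; Op: B(l2); lam,u: u_g;
rei: bijection unitary; ap,mul,add,IsSmul,ip,IsAdj: value, product, sum, T=cS, inner product,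
adjoint; InL T: T in L(G); tr: trace; MOp,InM,mmul,madd,IsMSmul,IsMAdj: same for matrices;
mtr: Tr⊗τ; IsProj: projection; InC: in the corner; CornerIso: such θ; CanonicalM:
θ(u_g)=χ(g)w v_δ(g)w*, δ: Γ->Λ isomorphism, χ character, w*w=1, ww*=p.
Relation: Partial answer to Q1: its full conclusion (all t, all countable ICC Λ) for the irreducible
ICC lattices in products of two groups SL_n over non-archimedean local fields (with (T) if m,n≥3).
Not settled: all other lattices, e.g. with real or complex factors, or in simple groups.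
-/

open Vale.Agent.P092.H160.St Vale.Agent.P092.H103.St Vale.Agent.P092.H515.St

namespace Vale.Agent.P092.SR.St

/-- `G` is ICC: every nontrivial conjugacy class is infinite. -/
def ICC (G : Type) [Group G] : Prop := ∀ g : G, g ≠ 1 → Set.Infinite {y : G | ∃ h, y = h * g * h⁻¹}

/-- `i` identifies `Γ` with an irreducible lattice of `G₁ × G₂`: `i` is injective, its image is a
lattice of `G₁ × G₂`, and the projections of the image to `G₁` and `G₂` are dense. -/
structure IrrLattice {Γ G₁ G₂ : Type} [Group Γ] [Group G₁] [Group G₂] [TopologicalSpace G₁]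
    [TopologicalSpace G₂] (i : Γ →* G₁ × G₂) : Prop where
  inj : Function.Injective i
  lat : IsLattice i.range
  dense₁ : DenseRange fun g => (i g).1
  dense₂ : DenseRange fun g => (i g).2

/-- `Γ` is an ICC irreducible lattice in a product `SL_m(k) × SL_n(l)` of two special linear groups
over non-archimedean local fields. -/
def PadicProductLattice (Γ : Type) [Group Γ] : Prop :=
  ICC Γ ∧ ∃ (k l : Type) (_ : NontriviallyNormedField k) (_ : NontriviallyNormedField l)
    (m n : ℕ) (i : Γ →* Matrix.SpecialLinearGroup (Fin m) k × Matrix.SpecialLinearGroup (Fin n) l),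
    ProperSpace k ∧ ProperSpace l ∧ IsUltrametricDist k ∧ IsUltrametricDist l ∧ 2 ≤ m ∧ 2 ≤ n ∧
    IrrLattice i

/-- `Γ` is `W*`-superrigid: every isomorphism `L(Γ) → L(Λ)`, `Λ` any countable ICC group, is
canonical. -/
def Super (Γ : Type) [Group Γ] : Prop :=
  ∀ (Λ : Type) [Group Λ] [Countable Λ], ICC Λ → ∀ θ : StarIso Γ Λ, Canonical θ

/-- The conclusion of Q1 for `Γ`: if `Λ` is any countable ICC group and `θ` is an isomorphism of
`L(Γ)` onto the amplification `p M_n(L(Λ)) p`, then `p` has trace `1` and `θ` is canonical. -/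
def SuperAll (Γ : Type) [Group Γ] : Prop :=
  ∀ (Λ : Type) [Group Λ] [Countable Λ], ICC Λ → ∀ (n : ℕ) (p : MOp n Λ), IsProj p →
    ∀ θ : CornerIso Γ Λ n p, mtr p = 1 ∧ CanonicalM θ

/-- Version with `Λ` torsion-free and `t = 1`. -/
def FinalTF : Prop :=
  ∀ (Γ : Type) [Group Γ], PadicProductLattice Γ → ∀ (Λ : Type) [Group Λ] [Countable Λ], ICC Λ →
    (∀ s : Λ, s ≠ 1 → ∀ n : ℕ, n ≠ 0 → s ^ n ≠ 1) → ∀ θ : StarIso Γ Λ, Canonical θ

/-- Version with `t = 1` and all countable ICC groups `Λ`. -/
def Final1 : Prop :=
  (∀ (Γ : Type) [Group Γ], PadicProductLattice Γ → Super Γ) ∧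
  ∀ n : ℕ, 2 ≤ n → Super (Matrix.SpecialLinearGroup (Fin n) (LaurentPolynomial (ZMod 2)))

/-- Version with all `t` and all countable ICC groups `Λ`. -/
def FinalAll : Prop :=
  (∀ (Γ : Type) [Group Γ], PadicProductLattice Γ → SuperAll Γ) ∧
  ∀ n : ℕ, 2 ≤ n → SuperAll (Matrix.SpecialLinearGroup (Fin n) (LaurentPolynomial (ZMod 2)))

end Vale.Agent.P092.SR.St
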