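import Vale.Agent.P092.H160.Mult
import Vale.Agent.P092.H515.RkDef

/-!
P092, project B (W*-superrigidity for irreducible lattices in products of two totally disconnected
groups), interface file.

All operators live on a Hilbert space `ℋ` (in the application `ℓ²(Λ × Λ)`) with three commuting
unitary representations of `Γ`: the source `V = Δ(u_g)`, and the two targets `R₁`, `R₂` (right
translations of `Γ` in the first and second leg).
-/

set_option linter.all false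

open scoped InnerProductSpace
open Filter Topology ContinuousLinearMap MeasureTheory

namespace Vale.Agent.P092.SR

open Vale.Agent.P092.H160

/-! ### Compact open sets and the group theoretic hypotheses -/

/-- compact open sets -/
def CO {X : Type} [TopologicalSpace X] (C : Set X) : Prop := IsCompact C ∧ IsOpen C

/-- compact open subgroups -/
def COS {H : Type} [Group H] [TopologicalSpace H] (K : Subgroup H) : Prop := CO (K : Set H)

/-- The facts about the groups `H = PSL_n(k)`, `k` a non-archimedean local field, that are used. -/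
structure GoodGrp (H : Type) [Group H] [TopologicalSpace H] : Prop where
  top : IsTopologicalGroup H
  t2 : T2Space H
  sc : SecondCountableTopology H
  /-- compact open subgroups form a basis of neighbourhoods of the identity -/
  basis : ∀ U : Set H, IsOpen U → (1 : H) ∈ U → ∃ K : Subgroup H, COS K ∧ (K : Set H) ⊆ U
  nondisc : ¬ IsOpen ({1} : Set H)
  /-- proper open subgroups are compact -/
  proper : ∀ U : Subgroup H, IsOpen (U : Set H) → U ≠ ⊤ → IsCompact (U : Set H)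
  noncompact : ¬ IsCompact (Set.univ : Set H)
  perfect : commutator H = ⊤
  comm_open : ∀ U : Subgroup H, IsOpen (U : Set H) → IsOpen ((⁅U, U⁆ : Subgroup H) : Set H)
  /-- open normal subgroups -/
  open_normal : ∀ N : Subgroup H, N.Normal → IsOpen (N : Set H) → N = ⊤
  /-- a normal subgroup all of whose elements have relatively compact powers is trivial -/
  bdd_normal : ∀ N : Subgroup H, N.Normal →
    (∀ g ∈ N, ∃ C : Set H, IsCompact C ∧ ∀ m : ℕ, g ^ m ∈ C) → N = ⊥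
  /-- there is an element whose powers are not relatively compact -/
  hyp : ∃ g : H, ∀ C : Set H, IsCompact C → ∃ m : ℕ, g ^ m ∉ C
  /-- centralisers of nontrivial elements are not open -/
  cent : ∀ g : H, g ≠ 1 → ¬ IsOpen ((Subgroup.centralizer {g} : Subgroup H) : Set H)
  /-- every nontrivial element has a neighbourhood with infinitely many disjoint conjugates -/
  recur : ∀ z : H, z ≠ 1 → ∃ E ∈ 𝓝 z, ∃ a : ℕ → H, Pairwise fun i j =>
    Disjoint ((fun y => a i * y * (a i)⁻¹) '' E) ((fun y => a j * y * (a j)⁻¹) '' E)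

/-- `Γ` as an irreducible lattice in `G₁ × G₂`, seen through the two projections. -/
structure Irr {Γ G₁ G₂ : Type} [Group Γ] [Group G₁] [Group G₂] [TopologicalSpace G₁]
    [TopologicalSpace G₂] (p₁ : Γ →* G₁) (p₂ : Γ →* G₂) : Prop where
  countable : Countable Γ
  inj₁ : Function.Injective p₁
  inj₂ : Function.Injective p₂
  dense₁ : DenseRange p₁
  dense₂ : DenseRange p₂
  disc : ∀ (C₁ : Set G₁) (C₂ : Set G₂), IsCompact C₁ → IsCompact C₂ →
    {g : Γ | p₁ g ∈ C₁ ∧ p₂ g ∈ C₂}.Finite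
  lat : H515.St.IsLattice (p₁.prod p₂).range
  lat₁ : ∀ K : Subgroup G₂, COS K → H515.St.IsLattice ((K.comap p₂).map p₁)
  lat₂ : ∀ K : Subgroup G₁, COS K → H515.St.IsLattice ((K.comap p₁).map p₂)

/-! ### Commutants and integrals over the source and the target -/

section hilbert

variable {Γ H H' ℋ : Type} [Group Γ] [Group H] [Group H'] [NormedAddCommGroup ℋ]
  [InnerProductSpace ℂ ℋ] [CompleteSpace ℋ]

/-- The operators commuting with `S g` for `pr g ∈ K'`, with `T g` for `pr' g ∈ K` and with `sc`. -/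
def Qs (pr : Γ →* H) (pr' : Γ →* H') (S T : Γ →* (ℋ →L[ℂ] ℋ)) (sc : Set (ℋ →L[ℂ] ℋ))
    (K' : Subgroup H) (K : Subgroup H') (x : ℋ →L[ℂ] ℋ) : Prop :=
  (∀ g, pr g ∈ K' → x * S g = S g * x) ∧ (∀ g, pr' g ∈ K → x * T g = T g * x) ∧
    ∀ a ∈ sc, x * a = a * x

/-- `∑ T(g) x T(g)⁻¹ = c · 1`, the sum over `g ∈ Γ / {pr g ∈ K}` (for positive operators `x`
commuting with `T g`, `pr g ∈ K`). -/
def IntR (pr : Γ →* H) (T : Γ →* (ℋ →L[ℂ] ℋ)) (K : Subgroup H) (x : ℋ →L[ℂ] ℋ) (c : ℝ) : Prop :=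
  ∀ ζ : ℋ, HasSum (fun q : Γ ⧸ K.comap pr => (⟪T (q.out)⁻¹ ζ, x (T (q.out)⁻¹ ζ)⟫_ℂ).re)
    (c * ‖ζ‖ ^ 2)

/-- One leg at one place: `S` is the source representation with the place `pr`, `T` the target
representation with the place `pr'`. -/
structure Leg [TopologicalSpace H] [TopologicalSpace H'] (pr : Γ →* H) (pr' : Γ →* H')
    (S T : Γ →* (ℋ →L[ℂ] ℋ)) (sc : Set (ℋ →L[ℂ] ℋ)) : Prop where
  dense : DenseRange pr
  dense' : DenseRange pr'
  adjS : ∀ g, adjoint (S g) = S g⁻¹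
  adjT : ∀ g, adjoint (T g) = T g⁻¹
  comm : ∀ g h, S g * T h = T h * S g
  scS : ∀ a ∈ sc, ∀ g, a * S g = S g * a
  scT : ∀ a ∈ sc, ∀ g, a * T g = T g * a
  sc_adj : ∀ a ∈ sc, adjoint a ∈ sc
  /-- target ergodicity -/
  ergT : ∀ K' : Subgroup H, IsOpen (K' : Set H) → ∀ x, Qs pr pr' S T sc K' ⊤ x →
    ∃ c : ℂ, x = c • (1 : ℋ →L[ℂ] ℋ)
  /-- source ergodicity -/
  ergS : ∀ K : Subgroup H', IsOpen (K : Set H') → ∀ x, Qs pr pr' S T sc ⊤ K x →
    ∃ c : ℂ, x = c • (1 : ℋ →L[ℂ] ℋ)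
  /-- there is a nonzero element with finite target integral -/
  finT : ∃ (K' : Subgroup H) (K : Subgroup H'), COS K' ∧ COS K ∧ ∃ x, Qs pr pr' S T sc K' K x ∧
    0 ≤ x ∧ x ≠ 0 ∧ ∃ c, IntR pr' T K x c

/-- A covariant family of projections over the compact open subsets of `H`: `S g` acts by left
translation with `p g`, `T g` by right translation with `(q g)⁻¹`. -/
structure PFam [TopologicalSpace H] (p q : Γ →* H) (S T : Γ →* (ℋ →L[ℂ] ℋ))
    (sc : Set (ℋ →L[ℂ] ℋ)) (P : Set H → (ℋ →L[ℂ] ℋ)) : Prop where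
  adj : ∀ C, CO C → adjoint (P C) = P C
  mul : ∀ C D, CO C → CO D → P C * P D = P (C ∩ D)
  add : ∀ C D, CO C → CO D → Disjoint C D → P (C ∪ D) = P C + P D
  covS : ∀ g C, CO C → S g * P C * S g⁻¹ = P ((fun x => p g * x) '' C)
  covT : ∀ g C, CO C → T g * P C * T g⁻¹ = P ((fun x => x * (q g)⁻¹) '' C)
  comm : ∀ a ∈ sc, ∀ C, CO C → a * P C = P C * a
  nondeg : ∀ ζ, (∀ C, CO C → P C ζ = 0) → ζ = 0
  /-- every operator at the level `(K', K)` is a function on `K' \ H / K` -/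
  max : ∀ K' K : Subgroup H, COS K' → COS K → ∀ y, Qs p q S T sc K' K y →
    ∀ h : H, ∃ c : ℂ, y * P {x | ∃ a ∈ K', ∃ b ∈ K, x = a * h * b} =
      c • P {x | ∃ a ∈ K', ∃ b ∈ K, x = a * h * b}

/-- Three commuting unitary representations of `Γ`; the finite family `ξ` gives a Parseval frame
for the representation `R₁ × R₂` of `Γ × Γ` (for `t = 1` one vector, an orthonormal basis). -/
structure Tri {ι : Type} [Fintype ι] (V R₁ R₂ : Γ →* (ℋ →L[ℂ] ℋ)) (ξ : ι → ℋ) : Prop where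
  adjV : ∀ g, adjoint (V g) = V g⁻¹
  adj₁ : ∀ g, adjoint (R₁ g) = R₁ g⁻¹
  adj₂ : ∀ g, adjoint (R₂ g) = R₂ g⁻¹
  comm₁ : ∀ g h, V g * R₁ h = R₁ h * V g
  comm₂ : ∀ g h, V g * R₂ h = R₂ h * V g
  comm₁₂ : ∀ g h, R₁ g * R₂ h = R₂ h * R₁ g
  ne : ∃ k, ξ k ≠ 0
  frame : ∀ η : ℋ, HasSum (fun p : ι × Γ × Γ => ‖⟪R₁ p.2.1 (R₂ p.2.2 (ξ p.1)), η⟫_ℂ‖ ^ 2)
    (‖η‖ ^ 2)

end hilbert

/-! ### The model -/

section model

variable {Γ Λ : Type} [Group Γ] [Group Λ]

/-- `(a, b) ↦ (a, a⁻¹ b)` -/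
def eW (Λ : Type) [Group Λ] : Λ × Λ ≃ Λ × Λ where
  toFun p := (p.1, p.1⁻¹ * p.2)
  invFun p := (p.1, p.1 * p.2)
  left_inv p := by simp
  right_inv p := by simp

/-- The comultiplication `Δ(x) = W* (x ⊗ 1) W`, `W (δ_a ⊗ δ_b) = δ_a ⊗ δ_{a⁻¹b}`. -/
noncomputable def Del (x : Ell2 Λ →L[ℂ] Ell2 Λ) : Ell2 (Λ × Λ) →L[ℂ] Ell2 (Λ × Λ) :=
  rei (eW Λ).symm * (tens x 1 * rei (eW Λ))

/-- `J x J`, `(J ξ)(s) = conj ξ(s⁻¹)`. -/
noncomputable def JJ (x : Ell2 Λ →L[ℂ] Ell2 Λ) : Ell2 Λ →L[ℂ] Ell2 Λ :=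
  rei (Equiv.inv Λ) * (bar x * rei (Equiv.inv Λ))

theorem rei_eW_mul : rei (eW Λ) * rei (eW Λ).symm = 1 := by
  rw [ContinuousLinearMap.mul_def]
  ext1 v
  change rei (eW Λ) (rei (eW Λ).symm v) = v
  rw [rei_rei, Equiv.symm_trans_self, rei_refl]

theorem rei_inv_mul : (rei (Equiv.inv Λ) : Ell2 Λ →L[ℂ] Ell2 Λ) * rei (Equiv.inv Λ) = 1 := by
  ext1 v
  change rei (Equiv.inv Λ) (rei (Equiv.inv Λ) v) = v
  rw [rei_rei]
  have : (Equiv.inv Λ).trans (Equiv.inv Λ) = Equiv.refl Λ := by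
    ext x; simp
  rw [this, rei_refl]

theorem rei_eW_symm_mul : rei (eW Λ).symm * rei (eW Λ) = 1 := by
  ext1 v
  change rei (eW Λ).symm (rei (eW Λ) v) = v
  rw [rei_rei, Equiv.self_trans_symm, rei_refl]

theorem Del_one : Del (1 : Ell2 Λ →L[ℂ] Ell2 Λ) = 1 := by
  rw [Del, tens_one, one_mul, rei_eW_symm_mul]

theorem Del_mul (x y : Ell2 Λ →L[ℂ] Ell2 Λ) : Del (x * y) = Del x * Del y := by
  have h : tens (x * y) (1 : Ell2 Λ →L[ℂ] Ell2 Λ) = tens x 1 * tens y 1 := by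
    rw [← tens_mul, one_mul]
  have h2 : Del x * Del y = rei (eW Λ).symm * (tens x 1 * ((rei (eW Λ) * rei (eW Λ).symm) *
      (tens y 1 * rei (eW Λ)))) := by
    rw [Del, Del]; simp only [mul_assoc]
  rw [h2, rei_eW_mul, one_mul, Del, h]
  simp only [mul_assoc]

theorem JJ_one : JJ (1 : Ell2 Λ →L[ℂ] Ell2 Λ) = 1 := by
  rw [JJ, bar_one, one_mul, rei_inv_mul]

theorem JJ_mul (x y : Ell2 Λ →L[ℂ] Ell2 Λ) : JJ (x * y) = JJ x * JJ y := by
  have h2 : JJ x * JJ y = rei (Equiv.inv Λ) * (bar x * ((rei (Equiv.inv Λ) *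
      rei (Equiv.inv Λ)) * (bar y * rei (Equiv.inv Λ)))) := by
    rw [JJ, JJ]; simp only [mul_assoc]
  rw [h2, rei_inv_mul, one_mul, JJ, bar_mul]
  simp only [mul_assoc]

/-- The source representation `g ↦ Δ(α g)` on `ℓ²(Λ × Λ)`. -/
noncomputable def VV (α : Γ →* (Ell2 Λ →L[ℂ] Ell2 Λ)) :
    Γ →* (Ell2 (Λ × Λ) →L[ℂ] Ell2 (Λ × Λ)) where
  toFun g := Del (α g)
  map_one' := by rw [map_one, Del_one]
  map_mul' g h := by rw [map_mul, Del_mul]

/-- The target representation in the first leg: `g ↦ J α(g) J ⊗ 1`. -/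
noncomputable def RR₁ (α : Γ →* (Ell2 Λ →L[ℂ] Ell2 Λ)) :
    Γ →* (Ell2 (Λ × Λ) →L[ℂ] Ell2 (Λ × Λ)) where
  toFun g := tens (JJ (α g)) 1
  map_one' := by rw [map_one, JJ_one, tens_one]
  map_mul' g h := by rw [map_mul, JJ_mul, ← tens_mul, one_mul]

/-- The target representation in the second leg: `g ↦ 1 ⊗ J α(g) J`. -/
noncomputable def RR₂ (α : Γ →* (Ell2 Λ →L[ℂ] Ell2 Λ)) :
    Γ →* (Ell2 (Λ × Λ) →L[ℂ] Ell2 (Λ × Λ)) where
  toFun g := tens 1 (JJ (α g))
  map_one' := by rw [map_one, JJ_one, tens_one]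
  map_mul' g h := by rw [map_mul, JJ_mul, ← tens_mul, one_mul]

end model

end Vale.Agent.P092.SR
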