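import Vale.Agent.P092.SR.Blocks

/-!
P092, project B, any finite number of places: literal statements.
-/

set_option linter.all false

open scoped InnerProductSpace
open Filter Topology ContinuousLinearMap MeasureTheory

namespace Vale.Agent.P092.SR

open Vale.Agent.P092.H160

/-- The image of `Γ` in `G₁ × G₂` contains a lattice. -/
def LatPair {Γ G₁ G₂ : Type} [Group Γ] [Group G₁] [Group G₂] [TopologicalSpace G₁]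
    [TopologicalSpace G₂] (p₁ : Γ →* G₁) (p₂ : Γ →* G₂) : Prop :=
  ∃ Lat : Subgroup (G₁ × G₂), H515.St.IsLattice Lat ∧ Lat ≤ (p₁.prod p₂).range

/-- `Γ` as a lattice in a product of groups `H i`, with dense projections to the `H i`. -/
structure Plc {I Γ : Type} [Group Γ] {H : I → Type} [∀ i, Group (H i)]
    [∀ i, TopologicalSpace (H i)] (p : ∀ i, Γ →* H i) : Prop where
  countable : Countable Γ
  dense : ∀ i, DenseRange (p i)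
  small : ∃ K : ∀ i, Subgroup (H i), (∀ i, COS (K i)) ∧ ∀ g, (∀ i, p i g ∈ K i) → g = 1
  lat : ∀ i j, i ≠ j → LatPair (p i) (p j)

/-- [MATCH-R] as `MatchStmt`, with `LatPair` instead of `Irr`. -/
def MatchRStmt : Prop :=
  ∀ {ι Γ G₁ G₂ H ℋ : Type} [Fintype ι] [Group Γ] [Countable Γ] [Group G₁] [Group G₂] [Group H]
    [TopologicalSpace G₁] [TopologicalSpace G₂] [TopologicalSpace H] [NormedAddCommGroup ℋ]
    [InnerProductSpace ℂ ℋ] [CompleteSpace ℋ] (V R₁ R₂ : Γ →* (ℋ →L[ℂ] ℋ)) (ξ : ι → ℋ)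
    (p₁ : Γ →* G₁) (p₂ : Γ →* G₂) (q : Γ →* H), Tri V R₁ R₂ ξ → GoodGrp G₁ → GoodGrp G₂ →
    GoodGrp H → LatPair p₁ p₂ → DenseRange p₁ → DenseRange p₂ →
    ∀ (K₁ : Subgroup G₁) (K₂ : Subgroup G₂) (L₁ L₂ : Subgroup H), COS K₁ → COS K₂ → COS L₁ →
    COS L₂ → ∀ a b, Qs p₁ q V R₁ (Set.range R₂) K₁ L₁ a → Qs p₂ q V R₁ (Set.range R₂) K₂ L₂ b →
    0 ≤ a → 0 ≤ b → ∀ c d, IntR q R₁ L₁ a c → IntR p₂ V K₂ b d → a = 0 ∨ b = 0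

/-- [C5-R] same leg, different source places; nothing about the target maps. -/
def C5RStmt : Prop :=
  ∀ {ι Γ H₁ H₂ ℋ : Type} [Fintype ι] [Group Γ] [Countable Γ] [Group H₁] [Group H₂]
    [TopologicalSpace H₁] [TopologicalSpace H₂] [NormedAddCommGroup ℋ] [InnerProductSpace ℂ ℋ]
    [CompleteSpace ℋ] (V R₁ R₂ : Γ →* (ℋ →L[ℂ] ℋ)) (ξ : ι → ℋ) (p₁ q₁ : Γ →* H₁)
    (p₂ q₂ : Γ →* H₂), Tri V R₁ R₂ ξ → GoodGrp H₁ → GoodGrp H₂ → LatPair p₁ p₂ →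
    ∀ (P₁ : Set H₁ → (ℋ →L[ℂ] ℋ)) (P₂ : Set H₂ → (ℋ →L[ℂ] ℋ)),
    PFam p₁ q₁ V R₁ (Set.range R₂) P₁ → PFam p₂ q₂ V R₁ (Set.range R₂) P₂ →
    ∀ C D, CO C → CO D → P₁ C * P₂ D = P₂ D * P₁ C

/-- [C6-R] different legs, different source places; nothing about the target maps. -/
def C6RStmt : Prop :=
  ∀ {ι Γ H₁ H₂ ℋ : Type} [Fintype ι] [Group Γ] [Countable Γ] [Group H₁] [Group H₂]
    [TopologicalSpace H₁] [TopologicalSpace H₂] [NormedAddCommGroup ℋ] [InnerProductSpace ℂ ℋ]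
    [CompleteSpace ℋ] (V R₁ R₂ : Γ →* (ℋ →L[ℂ] ℋ)) (ξ : ι → ℋ) (p₁ q₁ : Γ →* H₁)
    (p₂ r₂ : Γ →* H₂), Tri V R₁ R₂ ξ → GoodGrp H₁ → GoodGrp H₂ → LatPair p₁ p₂ →
    ∀ (P₁ : Set H₁ → (ℋ →L[ℂ] ℋ)) (P₂ : Set H₂ → (ℋ →L[ℂ] ℋ)),
    PFam p₁ q₁ V R₁ (Set.range R₂) P₁ → PFam p₂ r₂ V R₂ (Set.range R₁) P₂ →
    ∀ C D, CO C → CO D → P₁ C * P₂ D = P₂ D * P₁ C

/-- [C7-R] different legs, same source place -/
def C7RStmt : Prop :=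
  ∀ {ι Γ H₁ ℋ : Type} [Fintype ι] [Group Γ] [Countable Γ] [Group H₁]
    [TopologicalSpace H₁] [NormedAddCommGroup ℋ] [InnerProductSpace ℂ ℋ]
    [CompleteSpace ℋ] (V R₁ R₂ : Γ →* (ℋ →L[ℂ] ℋ)) (ξ : ι → ℋ) (p₁ q₁ r₁ : Γ →* H₁),
    Tri V R₁ R₂ ξ → GoodGrp H₁ → DenseRange p₁ → DenseRange q₁ → DenseRange r₁ →
    ∀ (P Q : Set H₁ → (ℋ →L[ℂ] ℋ)),
    PFam p₁ q₁ V R₁ (Set.range R₂) P → PFam p₁ r₁ V R₂ (Set.range R₁) Q →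
    ∀ C D, CO C → CO D → P C * Q D = Q D * P C

end Vale.Agent.P092.SR
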