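import Vale.Agent.P092.SR.Defs

/-!
P092, project B: preimages of open subgroups under a dense homomorphism have infinite conjugation
orbits.
-/

set_option linter.all false

open Filter Topology

namespace Vale.Agent.P092.SR

theorem icc_of_dense {Γ G : Type} [Group Γ] [Group G] [TopologicalSpace G] [IsTopologicalGroup G]
    [T2Space G] (p : Γ →* G) (hd : DenseRange p) (U : Subgroup G) (hU : IsOpen (U : Set G))
    (h : Γ) (hc : ¬ IsOpen ((Subgroup.centralizer {p h} : Subgroup G) : Set G)) :
    Set.Infinite {x : Γ | ∃ g ∈ U.comap p, x = g * h * g⁻¹} := by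
  intro hfin
  apply hc
  set Z : Subgroup G := Subgroup.centralizer {p h} with hZ
  have hZc : IsClosed (Z : Set G) := by
    have : (Z : Set G) = {x | p h * x = x * p h} := by
      ext x
      rw [hZ, SetLike.mem_coe, Subgroup.mem_centralizer_iff]
      simp
    rw [this]
    exact isClosed_eq (by fun_prop) (by fun_prop)
  -- choose representatives
  have hsel : ∀ x ∈ {x : Γ | ∃ g ∈ U.comap p, x = g * h * g⁻¹}, ∃ g, x = g * h * g⁻¹ :=
    fun x hx => ⟨hx.choose, hx.choose_spec.2⟩
  choose! f hf using hsel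
  set A : Set G := ⋃ x ∈ {x : Γ | ∃ g ∈ U.comap p, x = g * h * g⁻¹},
    (fun z => p (f x) * z) '' (Z : Set G) with hA
  have hAc : IsClosed A := by
    refine hfin.isClosed_biUnion fun x _ => ?_
    exact (Homeomorph.mulLeft (p (f x))).isClosedMap _ hZc
  have hUA : (U : Set G) ⊆ A := by
    have h1 : (U : Set G) ⊆ closure (p '' (U.comap p : Set Γ)) := by
      have := hd.open_subset_closure_inter hU
      refine this.trans (closure_mono ?_)
      rintro _ ⟨hx, g, rfl⟩
      exact ⟨g, hx, rfl⟩
    refine h1.trans (hAc.closure_subset_iff.mpr ?_)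
    rintro _ ⟨g, hg, rfl⟩
    have hm : g * h * g⁻¹ ∈ {x : Γ | ∃ g ∈ U.comap p, x = g * h * g⁻¹} := ⟨g, hg, rfl⟩
    refine Set.mem_biUnion hm ⟨p ((f (g * h * g⁻¹))⁻¹ * g), ?_, ?_⟩
    · rw [hZ, SetLike.mem_coe, Subgroup.mem_centralizer_iff]
      simp only [Set.mem_singleton_iff, forall_eq]
      have e := hf _ hm
      set k := f (g * h * g⁻¹)
      rw [← map_mul, ← map_mul]
      congr 1
      have e2 : k⁻¹ * g * h = k⁻¹ * (g * h * g⁻¹) * g := by group
      rw [e2]
      conv_rhs => rw [e]
      group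
    · change p (f (g * h * g⁻¹)) * p _ = p g
      rw [← map_mul]
      congr 1
      group
  -- `Z` has finite index in `U`
  have hfi : (Z.subgroupOf U).FiniteIndex := by
    have hcov : ∀ u : U, ∃ x : {x : Γ | ∃ g ∈ U.comap p, x = g * h * g⁻¹},
        ∃ z ∈ Z, (u : G) = p (f x) * z := by
      intro u
      obtain ⟨x, hx, z, hz, e⟩ := Set.mem_iUnion₂.mp (hUA u.2)
      exact ⟨⟨x, hx⟩, z, hz, e.symm⟩
    choose F zF hzF hF using hcov
    have : Finite {x : Γ | ∃ g ∈ U.comap p, x = g * h * g⁻¹} := hfin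
    have hq : Finite (U ⧸ Z.subgroupOf U) := by
      refine Finite.of_injective
        (fun q : U ⧸ Z.subgroupOf U => F q.out) fun a b hab => ?_
      have hab' : F a.out = F b.out := hab
      rw [← QuotientGroup.out_eq' a, ← QuotientGroup.out_eq' b, QuotientGroup.eq,
        Subgroup.mem_subgroupOf]
      have ea := hF a.out
      have eb := hF b.out
      rw [hab'] at ea
      have : (((a.out)⁻¹ * b.out : U) : G) = (zF a.out)⁻¹ * zF b.out := by
        rw [Subgroup.coe_mul, Subgroup.coe_inv, ea, eb]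
        group
      rw [this]
      exact Z.mul_mem (Z.inv_mem (hzF _)) (hzF _)
    exact Subgroup.finiteIndex_of_finite_quotient
  have hop : IsOpen ((Z.subgroupOf U : Subgroup U) : Set U) := by
    refine Subgroup.isOpen_of_isClosed_of_finiteIndex _ ?_
    exact hZc.preimage continuous_subtype_val
  refine Subgroup.isOpen_mono (H₁ := Z ⊓ U) inf_le_left ?_
  have := hU.isOpenMap_subtype_val _ hop
  convert this using 1
  ext x
  simp [Subgroup.mem_subgroupOf]

end Vale.Agent.P092.SR
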