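import Vale.Agent.P092.SR.Blocks
import Vale.Agent.P092.SR.Icc

/-!
P092, project B: assembly of the blocks of `SR/Blocks.lean`.
-/

set_option linter.all false

open scoped InnerProductSpace
open Filter Topology ContinuousLinearMap MeasureTheory

namespace Vale.Agent.P092.SR

open Vale.Agent.P092.H160

section leg

variable {ι Γ ℋ : Type} [Fintype ι] [Group Γ] [NormedAddCommGroup ℋ] [InnerProductSpace ℂ ℋ]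
    [CompleteSpace ℋ] {V R₁ R₂ : Γ →* (ℋ →L[ℂ] ℋ)} {ξ : ι → ℋ} {J F : ℋ → ℋ}

/-- Ergodicity over a place `p` of `V`: the operators commuting with `R₁`, `R₂` and `V g`,
`p g ∈ U` are scalar. -/
def ErgAt {G : Type} [Group G] [TopologicalSpace G] (V R₁ R₂ : Γ →* (ℋ →L[ℂ] ℋ))
    (p : Γ →* G) : Prop :=
  ∀ U : Subgroup G, IsOpen (U : Set G) → ∀ x : ℋ →L[ℂ] ℋ, (∀ g, p g ∈ U → x * V g = V g * x) →
    (∀ g, x * R₁ g = R₁ g * x) → (∀ g, x * R₂ g = R₂ g * x) →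
    ∃ c : ℂ, x = c • (1 : ℋ →L[ℂ] ℋ)

theorem ErgAt.qs {G G' : Type} [Group G] [TopologicalSpace G] [Group G'] {p : Γ →* G}
    {p' : Γ →* G'} (h : ErgAt V R₁ R₂ p) {U : Subgroup G} (hU : IsOpen (U : Set G))
    {x : ℋ →L[ℂ] ℋ} (hx : Qs p p' V R₁ (Set.range R₂) U ⊤ x) :
    ∃ c : ℂ, x = c • (1 : ℋ →L[ℂ] ℋ) :=
  h U hU x hx.1 (fun g => hx.2.1 g (Subgroup.mem_top _)) fun g => hx.2.2 _ ⟨g, rfl⟩

theorem Irr.symm' {G₁ G₂ : Type} [Group G₁] [Group G₂] [TopologicalSpace G₁]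
    [TopologicalSpace G₂] (hII : IrrIsoStmt) {p₁ : Γ →* G₁} {p₂ : Γ →* G₂} (h : Irr p₁ p₂) :
    Irr p₂ p₁ :=
  (hII p₁ p₂ (ContinuousMulEquiv.refl _) (ContinuousMulEquiv.refl _) h).2

/-- one leg, one pair of places -/
theorem leg_of {G G' : Type} [Group G] [TopologicalSpace G] [Group G'] [TopologicalSpace G']
    {p : Γ →* G} {p' : Γ →* G'} (hT : Tri V R₁ R₂ ξ) (hS : Sym3 V R₁ R₂ J F)
    (hp : DenseRange p) (hp' : DenseRange p') (he : ErgAt V R₁ R₂ p) (he' : ErgAt V R₁ R₂ p')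
    (hf : FinI p p' V R₁ (Set.range R₂)) : Leg p p' V R₁ (Set.range R₂) where
  dense := hp
  dense' := hp'
  adjS := hT.adjV
  adjT := hT.adj₁
  comm := hT.comm₁
  scS := by rintro _ ⟨g, rfl⟩ k; exact (hT.comm₂ k g).symm
  scT := by rintro _ ⟨g, rfl⟩ k; exact (hT.comm₁₂ k g).symm
  sc_adj := by rintro _ ⟨g, rfl⟩; exact ⟨g⁻¹, (hT.adj₂ g).symm⟩
  ergT U hU x hx := he.qs hU hx
  ergS U hU x hx := ergS_of hS (fun y hy => he'.qs hU hy) hx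
  finT := hf

/-- the output of Theorem A for both places of leg 1 -/
theorem leg_out {H₁ H₂ : Type} [Group H₁] [TopologicalSpace H₁] [Group H₂] [TopologicalSpace H₂]
    (hII : IrrIsoStmt) (hM : MatchStmt) (hA : ThAStmt)
    {p₁ : Γ →* H₁} {p₂ : Γ →* H₂} (hT : Tri V R₁ R₂ ξ) (hS : Sym3 V R₁ R₂ J F)
    (hG₁ : GoodGrp H₁) (hG₂ : GoodGrp H₂) (hI : Irr p₁ p₂)
    (he₁ : ErgAt V R₁ R₂ p₁) (he₂ : ErgAt V R₁ R₂ p₂)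
    (hf₁ : FinI p₁ p₁ V R₁ (Set.range R₂) ∨ FinI p₁ p₂ V R₁ (Set.range R₂))
    (hf₂ : FinI p₂ p₁ V R₁ (Set.range R₂) ∨ FinI p₂ p₂ V R₁ (Set.range R₂)) :
    ∃ (q₁ : Γ →* H₁) (q₂ : Γ →* H₂) (P₁ : Set H₁ → (ℋ →L[ℂ] ℋ)) (P₂ : Set H₂ → (ℋ →L[ℂ] ℋ)),
      Irr q₁ q₂ ∧ PFam p₁ q₁ V R₁ (Set.range R₂) P₁ ∧ PFam p₂ q₂ V R₁ (Set.range R₂) P₂ := by
  haveI := hI.countable
  have hI' : Irr p₂ p₁ := Irr.symm' hII hI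
  have key : (FinI p₁ p₁ V R₁ (Set.range R₂) ∧ FinI p₂ p₂ V R₁ (Set.range R₂)) ∨
      (FinI p₁ p₂ V R₁ (Set.range R₂) ∧ FinI p₂ p₁ V R₁ (Set.range R₂)) := by
    rcases hf₁ with h1 | h1 <;> rcases hf₂ with h2 | h2
    · exfalso
      obtain ⟨K₁, L₁, hK₁, hL₁, x, hx, hx0, hxn, c, hc⟩ := h1
      obtain ⟨K₂, L₂, hK₂, hL₂, y, hy, hy0, hyn, d, hd⟩ := h2
      -- `y` target integrable `(2, 1)`, `J x J` source integrable `(1, 1)`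
      rcases hM V R₁ R₂ ξ p₂ p₁ p₁ hT hG₂ hG₁ hG₁ hI' K₂ L₁ L₂ K₁ hK₂ hL₁ hL₂ hK₁ y (cjJ hS x) hy
        (cjJ_Qs hS hx) hy0 (cjJ_nonneg hS hx0) d c hd (cjJ_IntR hS hc) with h | h
      · exact hyn h
      · exact cjJ_ne hS hxn h
    · exact Or.inl ⟨h1, h2⟩
    · exact Or.inr ⟨h1, h2⟩
    · exfalso
      obtain ⟨K₁, L₁, hK₁, hL₁, x, hx, hx0, hxn, c, hc⟩ := h1
      obtain ⟨K₂, L₂, hK₂, hL₂, y, hy, hy0, hyn, d, hd⟩ := h2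
      rcases hM V R₁ R₂ ξ p₁ p₂ p₂ hT hG₁ hG₂ hG₂ hI K₁ L₂ L₁ K₂ hK₁ hL₂ hL₁ hK₂ x (cjJ hS y) hx
        (cjJ_Qs hS hy) hx0 (cjJ_nonneg hS hy0) c d hc (cjJ_IntR hS hd) with h | h
      · exact hxn h
      · exact cjJ_ne hS hyn h
  rcases key with ⟨h1, h2⟩ | ⟨h1, h2⟩
  · obtain ⟨ψ₁, P₁, hP₁⟩ := hA p₁ p₁ V R₁ (Set.range R₂) hG₁ hG₁
      (leg_of hT hS hI.dense₁ hI.dense₁ he₁ he₁ h1)
    obtain ⟨ψ₂, P₂, hP₂⟩ := hA p₂ p₂ V R₁ (Set.range R₂) hG₂ hG₂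
      (leg_of hT hS hI.dense₂ hI.dense₂ he₂ he₂ h2)
    exact ⟨_, _, P₁, P₂, (hII p₁ p₂ ψ₁ ψ₂ hI).1, hP₁, hP₂⟩
  · obtain ⟨ψ₁, P₁, hP₁⟩ := hA p₁ p₂ V R₁ (Set.range R₂) hG₁ hG₂
      (leg_of hT hS hI.dense₁ hI.dense₂ he₁ he₂ h1)
    obtain ⟨ψ₂, P₂, hP₂⟩ := hA p₂ p₁ V R₁ (Set.range R₂) hG₂ hG₁
      (leg_of hT hS hI.dense₂ hI.dense₁ he₂ he₁ h2)
    exact ⟨_, _, P₁, P₂, (hII p₂ p₁ ψ₁ ψ₂ hI').1, hP₁, hP₂⟩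

/-- the joint eigenvector -/
theorem exists_vector {H₁ H₂ : Type} [Group H₁] [TopologicalSpace H₁] [Group H₂]
    [TopologicalSpace H₂] (hII : IrrIsoStmt) (hM : MatchStmt) (hA : ThAStmt) (hSw : SwapLegStmt)
    (h5 : C5Stmt) (h6 : C6Stmt) (h7 : C7Stmt) (hE : EndStmt) {ξ : Unit → ℋ}
    {p₁ : Γ →* H₁} {p₂ : Γ →* H₂} (hT : Tri V R₁ R₂ ξ) (hξ : ‖ξ ()‖ = 1)
    (hS : Sym3 V R₁ R₂ J F)
    (hG₁ : GoodGrp H₁) (hG₂ : GoodGrp H₂) (hI : Irr p₁ p₂)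
    (he₁ : ErgAt V R₁ R₂ p₁) (he₂ : ErgAt V R₁ R₂ p₂)
    (hf₁ : FinI p₁ p₁ V R₁ (Set.range R₂) ∨ FinI p₁ p₂ V R₁ (Set.range R₂))
    (hf₂ : FinI p₂ p₁ V R₁ (Set.range R₂) ∨ FinI p₂ p₂ V R₁ (Set.range R₂)) :
    ∃ w : ℋ, ‖w‖ = 1 ∧ ∀ g, ∃ (a b : Γ) (z : ℂ), ‖z‖ = 1 ∧ V g w = z • R₁ a (R₂ b w) := by
  obtain ⟨q₁, q₂, P₁, P₂, hq, hP₁, hP₂⟩ := leg_out hII hM hA hT hS hG₁ hG₂ hI he₁ he₂ hf₁ hf₂
  have hT' : Tri V R₂ R₁ ξ := hSw V R₁ R₂ ξ hT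
  have hI' : Irr p₂ p₁ := Irr.symm' hII hI
  have hq' : Irr q₂ q₁ := Irr.symm' hII hq
  have hQ₁ := cjF_PFam hS hP₁
  have hQ₂ := cjF_PFam hS hP₂
  refine hE V R₁ R₂ ξ p₁ q₁ q₁ p₂ q₂ q₂ hT hξ hG₁ hG₂ hI hq hq P₁ _ P₂ _ hP₁ hP₂ hQ₁ hQ₂ ?_ ?_ ?_
    ?_ ?_ ?_
  · exact h5 V R₁ R₂ ξ p₁ q₁ p₂ q₂ hT hG₁ hG₂ hI hq P₁ P₂ hP₁ hP₂
  · exact h5 V R₂ R₁ ξ p₁ q₁ p₂ q₂ hT' hG₁ hG₂ hI hq _ _ hQ₁ hQ₂
  · exact h7 V R₁ R₂ ξ p₁ q₁ q₁ p₂ q₂ q₂ hT hG₁ hG₂ hI hq hq P₁ _ hP₁ hQ₁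
  · exact h6 V R₁ R₂ ξ p₁ q₁ q₁ p₂ q₂ q₂ hT hG₁ hG₂ hI hq hq P₁ _ hP₁ hQ₂
  · exact h6 V R₁ R₂ ξ p₂ q₂ q₂ p₁ q₁ q₁ hT hG₂ hG₁ hI' hq' hq' P₂ _ hP₂ hQ₁
  · exact h7 V R₁ R₂ ξ p₂ q₂ q₂ p₁ q₁ q₁ hT hG₂ hG₁ hI' hq' hq' P₂ _ hP₂ hQ₂

/-- from one vector to the integral -/
theorem finI_of_finN (h1 : A1Stmt) {G G' : Type} [Group G] [TopologicalSpace G] [Group G']
    [TopologicalSpace G'] {p : Γ →* G} {p' : Γ →* G'} (hT : Tri V R₁ R₂ ξ)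
    (he : ErgAt V R₁ R₂ p) (hf : FinN p p' V R₁ (Set.range R₂)) :
    FinI p p' V R₁ (Set.range R₂) := by
  obtain ⟨K', K, hK', hK, x, hx, hx0, hxn, hζ⟩ := hf
  refine ⟨K', K, hK', hK, x, hx, hx0, hxn, ?_⟩
  refine h1 p p' V R₁ (Set.range R₂) hT.adjV hT.adj₁ hT.comm₁ ?_ K'
    (fun y hy => he.qs hK'.2 hy) K x hx hx0 hζ
  rintro _ ⟨g, rfl⟩ k
  exact (hT.comm₁₂ k g).symm

end leg

section sl

open Matrix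

variable {n : ℕ} {k : Type} [NontriviallyNormedField k]

theorem not_open_centralizer_sl (hG : GoodGrp (PSLk n k))
    (g : SpecialLinearGroup (Fin n) k)
    (hg : (QuotientGroup.mk' (Subgroup.center (SpecialLinearGroup (Fin n) k))) g ≠ 1) :
    ¬ IsOpen ((Subgroup.centralizer {g} : Subgroup (SpecialLinearGroup (Fin n) k)) :
      Set (SpecialLinearGroup (Fin n) k)) := by
  intro ho
  haveI := hG.top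
  refine hG.cent _ hg ?_
  have h1 : IsOpen (((Subgroup.centralizer {g}).map (QuotientGroup.mk'
      (Subgroup.center (SpecialLinearGroup (Fin n) k))) : Subgroup (PSLk n k)) :
      Set (PSLk n k)) := QuotientGroup.isOpenMap_coe _ ho
  refine Subgroup.isOpen_mono ?_ h1
  rintro _ ⟨x, hx, rfl⟩
  rw [Subgroup.mem_centralizer_iff]
  intro y hy
  rw [Set.mem_singleton_iff] at hy
  subst hy
  rw [← map_mul, ← map_mul]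
  congr 1
  exact Subgroup.mem_centralizer_iff.mp hx g rfl

end sl

theorem tens_split {Λ : Type} [Group Λ] (s t : Λ) :
    tens (rho s : Ell2 Λ →L[ℂ] Ell2 Λ) (rho t) = tens (rho s) 1 * tens 1 (rho t) := by
  rw [← tens_mul, mul_one, one_mul]

theorem super_of_blocks (hGF : GFStmt) (hII : IrrIsoStmt) (hPL : ProjLatStmt) (hMod : ModelStmt)
    (hCom : CommStmt) (hErg : ErgStmt) (hFl : FlipStmt) (hA1 : A1Stmt) (hSw : SwapLegStmt)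
    (hM : MatchStmt) (hPass : PassStmt) (hFin : FinStmt) (hA : ThAStmt) (h5 : C5Stmt)
    (h6 : C6Stmt) (h7 : C7Stmt) (hE : EndStmt) (hH : HeightStmt)
    (hfc : ∀ (n : ℕ) (k : Type) [NontriviallyNormedField k], 2 ≤ n →
      Finite (Subgroup.center (Matrix.SpecialLinearGroup (Fin n) k))) : SuperStmt := by
  intro n₁ n₂ k₁ k₂ _ _ _ _ _ _ Γ hn₁ hn₂ hlat hd₁ hd₂ hicc Λ _ htf θ
  have hα : Frame (alphaOf (toAlg θ)) := frame_of_iso hicc (toAlg θ)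
  set α := alphaOf (toAlg θ) with hαd
  have hG₁ : GoodGrp (PSLk n₁ k₁) := hGF n₁ k₁ hn₁
  have hG₂ : GoodGrp (PSLk n₂ k₂) := hGF n₂ k₂ hn₂
  have hI := hPL n₁ n₂ k₁ k₂ Γ hn₁ hn₂ hlat hd₁ hd₂ hicc
  set p₁ := (QuotientGroup.mk' (Subgroup.center (Matrix.SpecialLinearGroup (Fin n₁) k₁))).comp
    (pj₁ Γ) with hp₁
  set p₂ := (QuotientGroup.mk' (Subgroup.center (Matrix.SpecialLinearGroup (Fin n₂) k₂))).comp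
    (pj₂ Γ) with hp₂
  have hT := hMod α hα
  obtain ⟨J, F, hS⟩ := hFl α hα
  have herg : ∀ {G : Type} [Group G] [TopologicalSpace G] [IsTopologicalGroup G] [T2Space G]
      (p : Γ →* G), DenseRange p →
      (∀ h : Γ, h ≠ 1 → ¬ IsOpen ((Subgroup.centralizer {p h} : Subgroup G) : Set G)) →
      ErgAt (VV α) (RR₁ α) (RR₂ α) p := by
    intro G _ _ _ _ p hp hc U hU x hxV hx₁ hx₂
    refine hErg α hα htf (U.comap p) (fun h hh => icc_of_dense p hp U hU h (hc h hh)) x ?_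
      fun g hg => hxV g hg
    intro s t
    rw [tens_split, ← mul_assoc, ((hCom α hα x).1.mp hx₁) s, mul_assoc,
      ((hCom α hα x).2.mp hx₂) t, mul_assoc]
  have hc₁ : ∀ h : Γ, h ≠ 1 → p₁ h ≠ 1 := fun h hh he => hh (hI.inj₁ (by rw [he, map_one]))
  have hc₂ : ∀ h : Γ, h ≠ 1 → p₂ h ≠ 1 := fun h hh he => hh (hI.inj₂ (by rw [he, map_one]))
  have he₁ : ErgAt (VV α) (RR₁ α) (RR₂ α) p₁ := by
    haveI := hG₁.top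
    haveI := hG₁.t2
    exact herg p₁ hI.dense₁ fun h hh => hG₁.cent _ (hc₁ h hh)
  have he₂ : ErgAt (VV α) (RR₁ α) (RR₂ α) p₂ := by
    haveI := hG₂.top
    haveI := hG₂.t2
    exact herg p₂ hI.dense₂ fun h hh => hG₂.cent _ (hc₂ h hh)
  have hs₁ : ErgAt (VV α) (RR₁ α) (RR₂ α) (pj₁ Γ) :=
    herg (pj₁ Γ) hd₁ fun h hh => not_open_centralizer_sl hG₁ _ (hc₁ h hh)
  have hs₂ : ErgAt (VV α) (RR₁ α) (RR₂ α) (pj₂ Γ) :=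
    herg (pj₂ Γ) hd₂ fun h hh => not_open_centralizer_sl hG₂ _ (hc₂ h hh)
  obtain ⟨hf₁, hf₂⟩ := hFin n₁ n₂ k₁ k₂ Γ hn₁ hn₂ hlat hd₁ hd₂ hicc α hα
  have hscS : ∀ a ∈ Set.range (RR₂ α), ∀ g, a * VV α g = VV α g * a := by
    rintro _ ⟨g, rfl⟩ k; exact (hT.comm₂ k g).symm
  have hscT : ∀ a ∈ Set.range (RR₂ α), ∀ g, a * RR₁ α g = RR₁ α g * a := by
    rintro _ ⟨g, rfl⟩ k; exact (hT.comm₁₂ k g).symm
  haveI := hfc n₁ k₁ hn₁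
  haveI := hfc n₂ k₂ hn₂
  obtain ⟨w, hw, hwg⟩ := exists_vector hII hM hA hSw h5 h6 h7 hE hT
    (by rw [norm_dl]) hS hG₁ hG₂ hI he₁ he₂
    (hf₁.imp (fun h => hPass _ _ _ _ _ _ _ hT.adjV hT.adj₁ hT.comm₁ hscS hscT
        (finI_of_finN hA1 hT hs₁ h)) fun h => hPass _ _ _ _ _ _ _ hT.adjV hT.adj₁ hT.comm₁ hscS
        hscT (finI_of_finN hA1 hT hs₁ h))
    (hf₂.imp (fun h => hPass _ _ _ _ _ _ _ hT.adjV hT.adj₁ hT.comm₁ hscS hscT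
        (finI_of_finN hA1 hT hs₂ h)) fun h => hPass _ _ _ _ _ _ _ hT.adjV hT.adj₁ hT.comm₁ hscS
        hscT (finI_of_finN hA1 hT hs₂ h))
  obtain ⟨c, hc, hp4⟩ := hH α hα w hw hwg
  exact canonical_iff θ (canonical_of_form _ (canon_of_p4 hα hicc hc hp4))

end Vale.Agent.P092.SR
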