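import Vale.Agent.P092.SR.St

/-!
P092, project B (helper58): literal forms of the final statements for any number `r ≥ 2` of factors
(reducible lattices included). Only definitions.
-/

open Vale.Agent.P092.H160.St Vale.Agent.P092.H103.St Vale.Agent.P092.H515.St

namespace Vale.Agent.P092.SR.St

/-- `i` identifies `Γ` with a lattice of the product of the groups `G j` whose projections to all the
factors `G j` are dense. -/
structure DenseLattice {Γ I : Type} {G : I → Type} [Group Γ] [∀ j, Group (G j)]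
    [∀ j, TopologicalSpace (G j)] (i : Γ →* ∀ j, G j) : Prop where
  inj : Function.Injective i
  lat : IsLattice i.range
  dense : ∀ j, DenseRange fun g => i g j

/-- `Γ` is an ICC lattice in a product of `r ≥ 2` special linear groups over non-archimedean local
fields, with dense projections to all the factors. -/
def PadicLattice (Γ : Type) [Group Γ] : Prop :=
  ICC Γ ∧ ∃ (r : ℕ) (k : Fin r → Type) (_ : ∀ j, NontriviallyNormedField (k j)) (n : Fin r → ℕ)
    (i : Γ →* ∀ j, Matrix.SpecialLinearGroup (Fin (n j)) (k j)),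
    2 ≤ r ∧ (∀ j, ProperSpace (k j)) ∧ (∀ j, IsUltrametricDist (k j)) ∧ (∀ j, 2 ≤ n j) ∧
    DenseLattice i

/-- `FinalTFN` for any number of factors. -/
def FinalTFR : Prop :=
  (∀ (Γ : Type) [Group Γ], PadicLattice Γ → ∀ (Λ : Type) [Group Λ] [Countable Λ], ICC Λ →
    (∀ s : Λ, s ≠ 1 → ∀ n : ℕ, n ≠ 0 → s ^ n ≠ 1) → ∀ θ : StarIso Γ Λ, Canonical θ) ∧
  ∀ (F : Type) [Field F] [Finite F] (n : ℕ), 2 ≤ n → Nat.Coprime n (Nat.card F - 1) →
    ∀ (Λ : Type) [Group Λ] [Countable Λ], ICC Λ →
    (∀ s : Λ, s ≠ 1 → ∀ n : ℕ, n ≠ 0 → s ^ n ≠ 1) →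
    IsEmpty (StarIso (Matrix.SpecialLinearGroup (Fin n) (LaurentPolynomial F)) Λ)

/-- `Final1F` for any number of factors. -/
def Final1R : Prop :=
  (∀ (Γ : Type) [Group Γ], PadicLattice Γ → Super Γ) ∧
  ∀ (F : Type) [Field F] [Finite F] (n : ℕ), 2 ≤ n → Nat.Coprime n (Nat.card F - 1) →
    Super (Matrix.SpecialLinearGroup (Fin n) (LaurentPolynomial F))

/-- `FinalAllF` for any number of factors. -/
def FinalAllR : Prop :=
  (∀ (Γ : Type) [Group Γ], PadicLattice Γ → SuperAll Γ) ∧
  ∀ (F : Type) [Field F] [Finite F] (n : ℕ), 2 ≤ n → Nat.Coprime n (Nat.card F - 1) →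
    SuperAll (Matrix.SpecialLinearGroup (Fin n) (LaurentPolynomial F))

end Vale.Agent.P092.SR.St
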