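import Vale.Agent.P092.SR.BlocksR
import Vale.Agent.P092.H828.EndT

/-!
P092, project B: the end for any finite number of places.
-/

set_option linter.all false

open scoped InnerProductSpace
open Filter Topology ContinuousLinearMap MeasureTheory

namespace Vale.Agent.P092.SR

open Vale.Agent.P092.H160 Vale.Agent.P092.H828

section abs

variable {E X Γ : Type*} [NormedAddCommGroup E] [InnerProductSpace ℂ E] [CompleteSpace E]
  [Group X] [Group Γ]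

theorem good_one {R : X → (E →L[ℂ] E)} {V : Γ → (E →L[ℂ] E)} (hR : URep R) (hV : URep V) :
    Good R V {1} {1} Set.univ where
  sub := le_rfl
  idem := by rintro _ rfl; rw [one_mul]
  adj := by
    rintro _ rfl
    have : adjoint (1 : E →L[ℂ] E) = 1 := by
      rw [← star_eq_adjoint, star_one]
    exact this
  comm := by rintro _ rfl _ rfl; rfl
  cV := by
    rintro g _ rfl
    rw [Set.mem_singleton_iff, mul_one, ← hV.mul, mul_inv_cancel, hV.one]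
  cR := by
    rintro g _ rfl
    rw [Set.mem_singleton_iff, mul_one, ← hR.mul, mul_inv_cancel, hR.one]
  nd := fun v hv => ⟨1, rfl, hv⟩
  orth := fun p _ x hx => absurd (Set.mem_univ x) hx

theorem good_finset {A : Type*} {R : X → (E →L[ℂ] E)} {V : Γ → (E →L[ℂ] E)} (hR : URep R)
    (hV : URep V) {PP BB : A → Set (E →L[ℂ] E)} {N : A → Set X}
    (h : ∀ a, Good R V (PP a) (BB a) (N a))
    (hc : ∀ a b, a ≠ b → ∀ p ∈ PP a, ∀ q ∈ PP b, p * q = q * p) (s : Finset A) :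
    ∃ (PP' BB' : Set (E →L[ℂ] E)) (N' : Set X), Good R V PP' BB' N' ∧
      (∀ x ∈ N', ∀ a ∈ s, x ∈ N a) ∧
      ∀ T : E →L[ℂ] E, (∀ a ∈ s, ∀ p ∈ PP a, p * T = T * p) → ∀ p ∈ PP', p * T = T * p := by
  classical
  induction s using Finset.induction_on with
  | empty =>
    refine ⟨{1}, {1}, Set.univ, good_one hR hV, fun x _ a ha => by simp at ha, fun T _ p hp => ?_⟩
    rw [Set.mem_singleton_iff] at hp
    rw [hp, one_mul, mul_one]
  | insert a s ha ih =>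
    obtain ⟨PP', BB', N', hg, hN, hT⟩ := ih
    have hcomm : ∀ p ∈ PP a, ∀ q ∈ PP', p * q = q * p := by
      intro p hp q hq
      refine (hT p (fun b hb r hr => ?_) q hq).symm
      refine hc b a ?_ r hr p hp
      rintro rfl
      exact ha hb
    refine ⟨_, _, _, Good.mul hR hV (h a) hg hcomm, ?_, ?_⟩
    · rintro x ⟨hx1, hx2⟩ b hb
      rcases Finset.mem_insert.mp hb with rfl | hb
      · exact hx1
      · exact hN x hx2 b hb
    · rintro T hT' _ ⟨p, hp, q, hq, rfl⟩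
      have e1 := hT' a (Finset.mem_insert_self _ _) p hp
      have e2 := hT T (fun b hb => hT' b (Finset.mem_insert_of_mem hb)) q hq
      rw [mul_assoc, e2, ← mul_assoc, e1, mul_assoc]

end abs

variable {ι I Γ ℋ : Type} [Fintype ι] [Fintype I] [Group Γ] [NormedAddCommGroup ℋ]
  [InnerProductSpace ℂ ℋ] [CompleteSpace ℋ] {H : I → Type} [∀ i, Group (H i)]
  [∀ i, TopologicalSpace (H i)] {V R₁ R₂ : Γ →* (ℋ →L[ℂ] ℋ)} {ξ : ι → ℋ}

theorem conj_comm_right {S T : ℋ →L[ℂ] ℋ} {a b P : ℋ →L[ℂ] ℋ} (h1 : a * b = 1) (h : P * a = a * P) :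
    a * P * b = P := by
  rw [← h, mul_assoc, h1, mul_one]

/-- [END-R] -/
theorem end_multi (hG : ∀ i, GoodGrp (H i)) (hT : Tri V R₁ R₂ ξ)
    {p q q' : ∀ i, Γ →* H i} {P Q : ∀ i, Set (H i) → (ℋ →L[ℂ] ℋ)}
    (hP : ∀ i, PFam (p i) (q i) V R₁ (Set.range R₂) (P i))
    (hQ : ∀ i, PFam (p i) (q' i) V R₂ (Set.range R₁) (Q i))
    (cPP : ∀ i j, i ≠ j → ∀ C D, CO C → CO D → P i C * P j D = P j D * P i C)
    (cQQ : ∀ i j, i ≠ j → ∀ C D, CO C → CO D → Q i C * Q j D = Q j D * Q i C)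
    (cPQ : ∀ i j, ∀ C D, CO C → CO D → P i C * Q j D = Q j D * P i C)
    (hK : ∃ K : ∀ i, Subgroup (H i), (∀ i, COS (K i)) ∧ ∀ g, (∀ i, q i g ∈ K i) → g = 1)
    (hK' : ∃ K : ∀ i, Subgroup (H i), (∀ i, COS (K i)) ∧ ∀ g, (∀ i, q' i g ∈ K i) → g = 1) :
    ∃ (r : ℕ) (ζ : Fin r → ℋ) (κ : ℝ), 0 < κ ∧ (∀ i, ‖ζ i‖ = 1) ∧
      ∀ g, ∃ i j a b, κ ≤ ‖⟪V g (ζ i), R₁ a (R₂ b (ζ j))⟫_ℂ‖ := by
  classical
  obtain ⟨K, hK1, hK2⟩ := hK
  obtain ⟨K', hK1', hK2'⟩ := hK'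
  have hR := RR_urep hT
  have hV := Tri.V_urep hT
  -- covariance under `RR`
  have cR : ∀ i (x : Γ × Γ) C, CO C → RR R₁ R₂ x * P i C * RR R₁ R₂ x⁻¹ =
      P i ((fun y => y * (q i x.1)⁻¹) '' C) := by
    intro i x C hC
    have e1 : R₂ x.2 * R₂ x.2⁻¹ = 1 := by rw [← map_mul, mul_inv_cancel, map_one]
    have e2 := (hP i).comm _ ⟨x.2, rfl⟩ C hC
    calc RR R₁ R₂ x * P i C * RR R₁ R₂ x⁻¹
        = R₁ x.1 * (R₂ x.2 * P i C) * (R₁ x.1⁻¹ * R₂ x.2⁻¹) := by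
          rw [RR, RR, Prod.fst_inv, Prod.snd_inv]; simp only [mul_assoc]
      _ = R₁ x.1 * (P i C * R₂ x.2) * (R₂ x.2⁻¹ * R₁ x.1⁻¹) := by rw [e2, hT.comm₁₂]
      _ = R₁ x.1 * P i C * (R₂ x.2 * R₂ x.2⁻¹) * R₁ x.1⁻¹ := by simp only [mul_assoc]
      _ = _ := by rw [e1, mul_one, (hP i).covT x.1 C hC]
  have cR' : ∀ i (x : Γ × Γ) C, CO C → RR R₁ R₂ x * Q i C * RR R₁ R₂ x⁻¹ =
      Q i ((fun y => y * (q' i x.2)⁻¹) '' C) := by
    intro i x C hC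
    have e1 : R₁ x.1 * R₁ x.1⁻¹ = 1 := by rw [← map_mul, mul_inv_cancel, map_one]
    have e2 := (hQ i).comm _ ⟨x.1, rfl⟩ C hC
    calc RR R₁ R₂ x * Q i C * RR R₁ R₂ x⁻¹
        = R₁ x.1 * R₂ x.2 * Q i C * (R₁ x.1⁻¹ * R₂ x.2⁻¹) := by
          rw [RR, RR, Prod.fst_inv, Prod.snd_inv]
      _ = R₂ x.2 * (R₁ x.1 * Q i C) * (R₁ x.1⁻¹ * R₂ x.2⁻¹) := by
          rw [hT.comm₁₂]; simp only [mul_assoc]
      _ = R₂ x.2 * Q i C * (R₁ x.1 * R₁ x.1⁻¹) * R₂ x.2⁻¹ := by rw [e2]; simp only [mul_assoc]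
      _ = _ := by rw [e1, mul_one, (hQ i).covT x.2 C hC]
  let PP : I ⊕ I → Set (ℋ →L[ℂ] ℋ) := fun a => Sum.rec
    (fun i => {T | ∃ C : Set (H i), IsCompact C ∧ IsOpen C ∧ T = P i C})
    (fun i => {T | ∃ C : Set (H i), IsCompact C ∧ IsOpen C ∧ T = Q i C}) a
  let BB : I ⊕ I → Set (ℋ →L[ℂ] ℋ) := fun a => Sum.rec
    (fun i => {T | ∃ y : H i, T = P i ((fun z => y * z) '' (K i : Set (H i)))})
    (fun i => {T | ∃ y : H i, T = Q i ((fun z => y * z) '' (K' i : Set (H i)))}) a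
  let N : I ⊕ I → Set (Γ × Γ) := fun a => Sum.rec
    (fun i => {x | q i x.1 ∈ K i}) (fun i => {x | q' i x.2 ∈ K' i}) a
  have hgood : ∀ a, Good (RR R₁ R₂) (fun g => V g) (PP a) (BB a) (N a) := by
    rintro (i | i)
    · haveI := (hG i).top
      exact (PFam.cov (hG i) (hP i) (R := RR R₁ R₂) (r := fun x => q i x.1) (cR i)).good (K i)
        (hK1 i).1 (hK1 i).2
    · haveI := (hG i).top
      exact (PFam.cov (hG i) (hQ i) (R := RR R₁ R₂) (r := fun x => q' i x.2) (cR' i)).good (K' i)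
        (hK1' i).1 (hK1' i).2
  have hcomm : ∀ a b, a ≠ b → ∀ s ∈ PP a, ∀ t ∈ PP b, s * t = t * s := by
    rintro (i | i) (j | j) hab _ ⟨C, hC1, hC2, rfl⟩ _ ⟨D, hD1, hD2, rfl⟩
    · exact cPP i j (fun h => hab (by rw [h])) C D ⟨hC1, hC2⟩ ⟨hD1, hD2⟩
    · exact cPQ i j C D ⟨hC1, hC2⟩ ⟨hD1, hD2⟩
    · exact (cPQ j i D C ⟨hD1, hD2⟩ ⟨hC1, hC2⟩).symm
    · exact cQQ i j (fun h => hab (by rw [h])) C D ⟨hC1, hC2⟩ ⟨hD1, hD2⟩
  obtain ⟨PP', BB', N', hg, hN, _⟩ := good_finset hR hV hgood hcomm Finset.univ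
  have hN1 : ∀ x ∈ N', x = 1 := by
    intro x hx
    have h1 : x.1 = 1 := hK2 _ fun i => hN x hx (Sum.inl i) (Finset.mem_univ _)
    have h2 : x.2 = 1 := hK2' _ fun i => hN x hx (Sum.inr i) (Finset.mem_univ _)
    exact Prod.ext h1 h2
  obtain ⟨r, ζ, κ, a1, a2, a3⟩ := hg.end_t hR hT.frame hT.ne hV
    (fun g x => by
      rw [RR, ← mul_assoc, hT.comm₁, mul_assoc, hT.comm₂, ← mul_assoc]) hN1
  refine ⟨r, ζ, κ, a1, a2, fun g => ?_⟩
  obtain ⟨i, j, x, h⟩ := a3 g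
  exact ⟨i, j, x.1, x.2, h⟩

end Vale.Agent.P092.SR
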