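import Vale.Agent.P092.SR.Defs

/-!
P092, project B: transport of the operator side data by the flips, assembly of one leg.
-/

set_option linter.all false

open scoped InnerProductSpace
open Filter Topology ContinuousLinearMap MeasureTheory

namespace Vale.Agent.P092.SR

open Vale.Agent.P092.H160

/-- The antiunitary flip `J` exchanging `V` and `R₁` and preserving the commutant of `R₂`, and the
unitary `F` exchanging the legs. -/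
structure Sym3 {Γ ℋ : Type} [Group Γ] [NormedAddCommGroup ℋ] [InnerProductSpace ℂ ℋ]
    [CompleteSpace ℋ] (V R₁ R₂ : Γ →* (ℋ →L[ℂ] ℋ)) (J F : ℋ → ℋ) : Prop where
  Jadd : ∀ x y, J (x + y) = J x + J y
  Jsmul : ∀ (c : ℂ) x, J (c • x) = (starRingEnd ℂ) c • J x
  Jnorm : ∀ x, ‖J x‖ = ‖x‖
  Jinv : ∀ x, J (J x) = x
  JV : ∀ g x, J (V g x) = R₁ g (J x)
  JR : ∀ x y : ℋ →L[ℂ] ℋ, (∀ v, y v = J (x (J v))) → (∀ g, x * R₂ g = R₂ g * x) →
    ∀ g, y * R₂ g = R₂ g * y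
  Fadd : ∀ x y, F (x + y) = F x + F y
  Fsmul : ∀ (c : ℂ) x, F (c • x) = c • F x
  Fnorm : ∀ x, ‖F x‖ = ‖x‖
  Finv : ∀ x, F (F x) = x
  FV : ∀ g x, F (V g x) = V g (F x)
  FR₁ : ∀ g x, F (R₁ g x) = R₂ g (F x)

section

variable {Γ ℋ : Type} [Group Γ] [NormedAddCommGroup ℋ] [InnerProductSpace ℂ ℋ]
    [CompleteSpace ℋ] {V R₁ R₂ : Γ →* (ℋ →L[ℂ] ℋ)} {J F : ℋ → ℋ}

/-- `J x J` -/
noncomputable def cjJ (h : Sym3 V R₁ R₂ J F) (x : ℋ →L[ℂ] ℋ) : ℋ →L[ℂ] ℋ :=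
  LinearMap.mkContinuous
    { toFun := fun v => J (x (J v))
      map_add' := fun v w => by rw [h.Jadd, map_add, h.Jadd]
      map_smul' := fun c v => by
        rw [h.Jsmul, map_smul, h.Jsmul, Complex.conj_conj, RingHom.id_apply] } ‖x‖ fun v => by
    change ‖J (x (J v))‖ ≤ _
    rw [h.Jnorm]
    exact (x.le_opNorm _).trans (by rw [h.Jnorm])

/-- `F x F` -/
noncomputable def cjF (h : Sym3 V R₁ R₂ J F) (x : ℋ →L[ℂ] ℋ) : ℋ →L[ℂ] ℋ :=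
  LinearMap.mkContinuous
    { toFun := fun v => F (x (F v))
      map_add' := fun v w => by rw [h.Fadd, map_add, h.Fadd]
      map_smul' := fun c v => by
        rw [h.Fsmul, map_smul, h.Fsmul, RingHom.id_apply] } ‖x‖ fun v => by
    change ‖F (x (F v))‖ ≤ _
    rw [h.Fnorm]
    exact (x.le_opNorm _).trans (by rw [h.Fnorm])

variable (h : Sym3 V R₁ R₂ J F)

include h

theorem cjJ_apply (x : ℋ →L[ℂ] ℋ) (v : ℋ) : cjJ h x v = J (x (J v)) := rfl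

theorem cjF_apply (x : ℋ →L[ℂ] ℋ) (v : ℋ) : cjF h x v = F (x (F v)) := rfl

theorem cjJ_cjJ (x : ℋ →L[ℂ] ℋ) : cjJ h (cjJ h x) = x := by
  ext v
  rw [cjJ_apply, cjJ_apply, h.Jinv, h.Jinv]

theorem cjF_cjF (x : ℋ →L[ℂ] ℋ) : cjF h (cjF h x) = x := by
  ext v
  rw [cjF_apply, cjF_apply, h.Finv, h.Finv]

theorem cjJ_mul (x y : ℋ →L[ℂ] ℋ) : cjJ h (x * y) = cjJ h x * cjJ h y := by
  ext v
  change J (x (y (J v))) = J (x (J (J (y (J v)))))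
  rw [h.Jinv]

theorem cjF_mul (x y : ℋ →L[ℂ] ℋ) : cjF h (x * y) = cjF h x * cjF h y := by
  ext v
  change F (x (y (F v))) = F (x (F (F (y (F v)))))
  rw [h.Finv]

theorem cjF_add (x y : ℋ →L[ℂ] ℋ) : cjF h (x + y) = cjF h x + cjF h y := by
  ext v
  change F (x (F v) + y (F v)) = F (x (F v)) + F (y (F v))
  rw [h.Fadd]

theorem cjF_smul (c : ℂ) (x : ℋ →L[ℂ] ℋ) : cjF h (c • x) = c • cjF h x := by
  ext v
  change F (c • x (F v)) = c • F (x (F v))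
  rw [h.Fsmul]

theorem cjJ_smul_one (c : ℂ) : cjJ h (c • (1 : ℋ →L[ℂ] ℋ)) =
    (starRingEnd ℂ) c • (1 : ℋ →L[ℂ] ℋ) := by
  ext v
  change J (c • J v) = (starRingEnd ℂ) c • v
  rw [h.Jsmul, h.Jinv]

theorem cjJ_V (g : Γ) : cjJ h (V g) = R₁ g := by
  ext v
  rw [cjJ_apply, h.JV, h.Jinv]

theorem cjJ_R₁ (g : Γ) : cjJ h (R₁ g) = V g := by
  rw [← cjJ_V h g, cjJ_cjJ]

theorem cjF_V (g : Γ) : cjF h (V g) = V g := by
  ext v
  rw [cjF_apply, h.FV, h.Finv]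

theorem cjF_R₁ (g : Γ) : cjF h (R₁ g) = R₂ g := by
  ext v
  rw [cjF_apply, h.FR₁, h.Finv]

theorem cjF_R₂ (g : Γ) : cjF h (R₂ g) = R₁ g := by
  rw [← cjF_R₁ h g, cjF_cjF]

theorem Jzero : J 0 = 0 := by
  have := h.Jnorm 0
  rwa [norm_zero, norm_eq_zero] at this

theorem Jneg (x : ℋ) : J (-x) = -J x := by
  have := h.Jsmul (-1) x
  simpa using this

theorem J_inner (x y : ℋ) : ⟪J x, J y⟫_ℂ = ⟪y, x⟫_ℂ := by
  have hsub : ∀ a b, J (a - b) = J a - J b := fun a b => by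
    rw [sub_eq_add_neg, h.Jadd, Jneg h, ← sub_eq_add_neg]
  have e1 : J (Complex.I • y) = -(Complex.I • J y) := by
    rw [h.Jsmul, Complex.conj_I, neg_smul]
  have e2 : J (Complex.I • x) = -(Complex.I • J x) := by
    rw [h.Jsmul, Complex.conj_I, neg_smul]
  rw [inner_eq_sum_norm_sq_div_four, inner_eq_sum_norm_sq_div_four (𝕜 := ℂ) y x]
  have a1 : ‖J x + J y‖ = ‖y + x‖ := by rw [← h.Jadd, h.Jnorm, add_comm]
  have a2 : ‖J x - J y‖ = ‖y - x‖ := by rw [← hsub, h.Jnorm, norm_sub_rev]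
  have a3 : ‖J x - Complex.I • J y‖ = ‖y - Complex.I • x‖ := by
    have : J x - Complex.I • J y = J (x + Complex.I • y) := by
      rw [h.Jadd, e1, sub_eq_add_neg]
    rw [this, h.Jnorm]
    have : y - Complex.I • x = -(Complex.I • (x + Complex.I • y)) := by
      rw [smul_add, smul_smul, Complex.I_mul_I, neg_smul, one_smul]; abel
    rw [this, norm_neg, norm_smul, Complex.norm_I, one_mul]
  have a4 : ‖J x + Complex.I • J y‖ = ‖y + Complex.I • x‖ := by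
    have : J x + Complex.I • J y = J (x - Complex.I • y) := by
      rw [hsub, e1, sub_neg_eq_add]
    rw [this, h.Jnorm]
    have : y + Complex.I • x = Complex.I • (x - Complex.I • y) := by
      rw [smul_sub, smul_smul, Complex.I_mul_I, neg_smul, one_smul]; abel
    rw [this, norm_smul, Complex.norm_I, one_mul]
  have r : (RCLike.I : ℂ) = Complex.I := rfl
  rw [r, a1, a2, a3, a4]

theorem cjJ_form (x : ℋ →L[ℂ] ℋ) (v : ℋ) :
    (⟪v, cjJ h x v⟫_ℂ).re = (⟪J v, x (J v)⟫_ℂ).re := by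
  have : ⟪v, cjJ h x v⟫_ℂ = ⟪x (J v), J v⟫_ℂ := by
    rw [cjJ_apply]
    conv_lhs => rw [← h.Jinv v]
    rw [J_inner h, h.Jinv]
  rw [this, ← inner_conj_symm, Complex.conj_re]

theorem cjJ_nonneg {x : ℋ →L[ℂ] ℋ} (hx : 0 ≤ x) : 0 ≤ cjJ h x := by
  rw [nonneg_iff_isPositive, isPositive_iff_complex] at hx ⊢
  intro v
  have e : ⟪cjJ h x v, v⟫_ℂ = ⟪J v, x (J v)⟫_ℂ := by
    rw [cjJ_apply]
    conv_lhs => rw [← h.Jinv v]
    rw [J_inner h, h.Jinv]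
  obtain ⟨h1, h2⟩ := hx (J v)
  have e2 : ⟪J v, x (J v)⟫_ℂ = ⟪x (J v), J v⟫_ℂ := by
    rw [← inner_conj_symm, ← h1]
    simp
  rw [e, e2]
  exact ⟨h1, h2⟩

theorem cjJ_ne {x : ℋ →L[ℂ] ℋ} (hx : x ≠ 0) : cjJ h x ≠ 0 := by
  intro h0
  apply hx
  rw [← cjJ_cjJ h x, h0]
  ext v
  change J 0 = 0
  exact Jzero h

variable {H H' : Type} [Group H] [Group H'] {pr : Γ →* H} {pr' : Γ →* H'}

theorem cjJ_Qs {K' : Subgroup H} {K : Subgroup H'} {x : ℋ →L[ℂ] ℋ}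
    (hx : Qs pr pr' V R₁ (Set.range R₂) K' K x) :
    Qs pr' pr V R₁ (Set.range R₂) K K' (cjJ h x) := by
  refine ⟨fun g hg => ?_, fun g hg => ?_, ?_⟩
  · rw [← cjJ_R₁ h g, ← cjJ_mul, ← cjJ_mul, hx.2.1 g hg]
  · rw [← cjJ_V h g, ← cjJ_mul, ← cjJ_mul, hx.1 g hg]
  · rintro _ ⟨g, rfl⟩
    exact h.JR x (cjJ h x) (fun v => rfl) (fun g => hx.2.2 _ ⟨g, rfl⟩) g

theorem cjJ_IntR {K : Subgroup H'} {x : ℋ →L[ℂ] ℋ} {c : ℝ} (hx : IntR pr' R₁ K x c) :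
    IntR pr' V K (cjJ h x) c := by
  intro ζ
  have := hx (J ζ)
  rw [h.Jnorm] at this
  refine this.congr_fun fun q => ?_
  rw [cjJ_form, h.JV]

/-- source ergodicity from target ergodicity -/
theorem ergS_of {K : Subgroup H'}
    (he : ∀ x, Qs pr' pr V R₁ (Set.range R₂) K ⊤ x → ∃ c : ℂ, x = c • (1 : ℋ →L[ℂ] ℋ))
    {x : ℋ →L[ℂ] ℋ} (hx : Qs pr pr' V R₁ (Set.range R₂) ⊤ K x) :
    ∃ c : ℂ, x = c • (1 : ℋ →L[ℂ] ℋ) := by
  obtain ⟨c, hc⟩ := he _ (cjJ_Qs h hx)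
  refine ⟨(starRingEnd ℂ) c, ?_⟩
  rw [← cjJ_smul_one h, ← hc, cjJ_cjJ]

omit h in
theorem inner_form_sq (x : ℋ) : ⟪x, x⟫_ℂ = ((‖x‖ ^ 2 : ℝ) : ℂ) := by
  rw [inner_self_eq_norm_sq_to_K]; norm_cast

theorem F_inner (x y : ℋ) : ⟪F x, F y⟫_ℂ = ⟪x, y⟫_ℂ := by
  let Fe : ℋ →ₗᵢ[ℂ] ℋ :=
    { toFun := F, map_add' := h.Fadd, map_smul' := fun c v => by
        rw [h.Fsmul, RingHom.id_apply], norm_map' := h.Fnorm }
  exact Fe.inner_map_map x y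

theorem cjF_adjoint (x : ℋ →L[ℂ] ℋ) : adjoint (cjF h x) = cjF h (adjoint x) := by
  symm
  rw [ContinuousLinearMap.eq_adjoint_iff]
  intro v w
  rw [cjF_apply, cjF_apply, ← F_inner h, h.Finv, adjoint_inner_left, ← F_inner h (F v), h.Finv]

theorem cjF_Qs {K' : Subgroup H} {K : Subgroup H'} {x : ℋ →L[ℂ] ℋ}
    (hx : Qs pr pr' V R₂ (Set.range R₁) K' K x) :
    Qs pr pr' V R₁ (Set.range R₂) K' K (cjF h x) := by
  refine ⟨fun g hg => ?_, fun g hg => ?_, ?_⟩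
  · rw [← cjF_V h g, ← cjF_mul, ← cjF_mul, hx.1 g hg]
  · rw [← cjF_R₂ h g, ← cjF_mul, ← cjF_mul, hx.2.1 g hg]
  · rintro _ ⟨g, rfl⟩
    rw [← cjF_R₁ h g, ← cjF_mul, ← cjF_mul, hx.2.2 _ ⟨g, rfl⟩]

/-- the family for the second leg -/
theorem cjF_PFam [TopologicalSpace H] {p q : Γ →* H} {P : Set H → (ℋ →L[ℂ] ℋ)}
    (hP : PFam p q V R₁ (Set.range R₂) P) :
    PFam p q V R₂ (Set.range R₁) (fun C => cjF h (P C)) where
  adj C hC := by rw [cjF_adjoint, hP.adj C hC]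
  mul C D hC hD := by rw [← cjF_mul, hP.mul C D hC hD]
  add C D hC hD hCD := by rw [hP.add C D hC hD hCD, cjF_add]
  covS g C hC := by
    rw [← hP.covS g C hC, cjF_mul, cjF_mul, cjF_V, cjF_V]
  covT g C hC := by
    rw [← hP.covT g C hC, cjF_mul, cjF_mul, cjF_R₁, cjF_R₁]
  comm := by
    rintro _ ⟨g, rfl⟩ C hC
    rw [← cjF_R₂ h g, ← cjF_mul, ← cjF_mul, hP.comm _ ⟨g, rfl⟩ C hC]
  nondeg ζ hζ := by
    have h0 : F 0 = 0 := by
      have := h.Fnorm 0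
      rwa [norm_zero, norm_eq_zero] at this
    have h1 : F ζ = 0 := hP.nondeg (F ζ) fun C hC => by
      have := hζ C hC
      rw [cjF_apply] at this
      rw [← h.Finv (P C (F ζ)), this, h0]
    rw [← h.Finv ζ, h1, h0]
  max K' K hK' hK y hy a := by
    obtain ⟨c, hc⟩ := hP.max K' K hK' hK _ (cjF_Qs h hy) a
    refine ⟨c, ?_⟩
    rw [← cjF_smul, ← hc, cjF_mul, cjF_cjF]

end

end Vale.Agent.P092.SR
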