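import Vale.Agent.P092.SR.EndR
import Vale.Agent.P092.SR.Main

/-!
P092, project B: assembly for any finite number of places and any finite frame (all `t`).
-/

set_option linter.all false

open scoped InnerProductSpace
open Filter Topology ContinuousLinearMap MeasureTheory

namespace Vale.Agent.P092.SR

open Vale.Agent.P092.H160

variable {ι I Γ ℋ : Type} [Fintype ι] [Fintype I] [Group Γ] [NormedAddCommGroup ℋ]
  [InnerProductSpace ℂ ℋ] [CompleteSpace ℋ] {H : I → Type} [∀ i, Group (H i)]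
  [∀ i, TopologicalSpace (H i)] {V R₁ R₂ : Γ →* (ℋ →L[ℂ] ℋ)} {ξ : ι → ℋ} {J F : ℋ → ℋ}

/-- If the place `i` of the source is finite over the place `j` of the target, and `j` over `i'`,
then `i = i'`. -/
theorem match_eq (hM : MatchRStmt) (hT : Tri V R₁ R₂ ξ) (hS : Sym3 V R₁ R₂ J F)
    (hG : ∀ i, GoodGrp (H i)) {p : ∀ i, Γ →* H i} (hp : Plc p) {i j i' : I}
    (h1 : FinI (p i) (p j) V R₁ (Set.range R₂)) (h2 : FinI (p j) (p i') V R₁ (Set.range R₂)) :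
    i = i' := by
  by_contra hne
  haveI := hp.countable
  obtain ⟨K₁, L₁, hK₁, hL₁, x, hx, hx0, hxn, c, hc⟩ := h1
  obtain ⟨K₂, L₂, hK₂, hL₂, y, hy, hy0, hyn, d, hd⟩ := h2
  rcases hM V R₁ R₂ ξ (p i) (p i') (p j) hT (hG i) (hG i') (hG j) (hp.lat i i' hne) (hp.dense i)
    (hp.dense i') K₁ L₂ L₁ K₂ hK₁ hL₂ hL₁ hK₂ x (cjJ hS y) hx (cjJ_Qs hS hy) hx0
    (cjJ_nonneg hS hy0) c d hc (cjJ_IntR hS hd) with h | h
  · exact hxn h
  · exact cjJ_ne hS hyn h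

/-- the families of leg 1 -/
theorem legs (hM : MatchRStmt) (hA : ThAStmt) (hT : Tri V R₁ R₂ ξ) (hS : Sym3 V R₁ R₂ J F)
    (hG : ∀ i, GoodGrp (H i)) {p : ∀ i, Γ →* H i} (hp : Plc p)
    (he : ∀ i, ErgAt V R₁ R₂ (p i))
    (hf : ∀ i, ∃ j, FinI (p i) (p j) V R₁ (Set.range R₂)) :
    ∃ (q : ∀ i, Γ →* H i) (P : ∀ i, Set (H i) → (ℋ →L[ℂ] ℋ)), (∀ i, DenseRange (q i)) ∧
      (∃ K : ∀ i, Subgroup (H i), (∀ i, COS (K i)) ∧ ∀ g, (∀ i, q i g ∈ K i) → g = 1) ∧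
      ∀ i, PFam (p i) (q i) V R₁ (Set.range R₂) (P i) := by
  haveI := hp.countable
  choose σ hσ using hf
  have hinv : ∀ i, σ (σ i) = i := fun i =>
    (match_eq hM hT hS hG hp (hσ i) (hσ (σ i))).symm
  have hta : ∀ i, ∃ (ψ : H (σ i) ≃ₜ* H i) (P : Set (H i) → (ℋ →L[ℂ] ℋ)),
      PFam (p i) (ψ.toMulEquiv.toMonoidHom.comp (p (σ i))) V R₁ (Set.range R₂) P := fun i =>
    hA (p i) (p (σ i)) V R₁ (Set.range R₂) (hG i) (hG (σ i))
      (leg_of hT hS (hp.dense i) (hp.dense (σ i)) (he i) (he (σ i)) (hσ i))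
  choose ψ P hP using hta
  obtain ⟨K, hK1, hK2⟩ := hp.small
  refine ⟨fun i => (ψ i).toMulEquiv.toMonoidHom.comp (p (σ i)), P, fun i => ?_, ?_, hP⟩
  · exact (ψ i).toHomeomorph.surjective.denseRange.comp (hp.dense (σ i))
      (ψ i).toHomeomorph.continuous
  · refine ⟨fun i => (K (σ i)).map (ψ i).toMulEquiv.toMonoidHom, fun i => ⟨?_, ?_⟩,
      fun g hg => ?_⟩
    · exact (hK1 (σ i)).1.image (ψ i).continuous
    · exact (ψ i).toHomeomorph.isOpenMap _ (hK1 (σ i)).2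
    · refine hK2 g fun i => ?_
      obtain ⟨a, ha, ha2⟩ := hg (σ i)
      have e1 : a = p (σ (σ i)) g := (ψ (σ i)).injective ha2
      have e2 : p (σ (σ i)) g ∈ K (σ (σ i)) := e1 ▸ ha
      rw [hinv i] at e2
      exact e2

/-- **The core of project B**, for any finite number of places and any finite frame. -/
theorem overlap (hM : MatchRStmt) (hA : ThAStmt) (h5 : C5RStmt) (h6 : C6RStmt) (h7 : C7RStmt)
    (hT : Tri V R₁ R₂ ξ) (hT' : Tri V R₂ R₁ ξ) (hS : Sym3 V R₁ R₂ J F)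
    (hG : ∀ i, GoodGrp (H i)) {p : ∀ i, Γ →* H i} (hp : Plc p)
    (he : ∀ i, ErgAt V R₁ R₂ (p i))
    (hf : ∀ i, ∃ j, FinI (p i) (p j) V R₁ (Set.range R₂)) :
    ∃ (r : ℕ) (ζ : Fin r → ℋ) (κ : ℝ), 0 < κ ∧ (∀ i, ‖ζ i‖ = 1) ∧
      ∀ g, ∃ i j a b, κ ≤ ‖⟪V g (ζ i), R₁ a (R₂ b (ζ j))⟫_ℂ‖ := by
  haveI := hp.countable
  obtain ⟨q, P, hq, hK, hP⟩ := legs hM hA hT hS hG hp he hf
  have hQ : ∀ i, PFam (p i) (q i) V R₂ (Set.range R₁) (fun C => cjF hS (P i C)) := fun i =>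
    cjF_PFam hS (hP i)
  refine end_multi hG hT hP hQ ?_ ?_ ?_ hK hK
  · exact fun i j hij => h5 V R₁ R₂ ξ (p i) (q i) (p j) (q j) hT (hG i) (hG j)
      (hp.lat i j hij) (P i) (P j) (hP i) (hP j)
  · exact fun i j hij => h5 V R₂ R₁ ξ (p i) (q i) (p j) (q j) hT' (hG i) (hG j)
      (hp.lat i j hij) _ _ (hQ i) (hQ j)
  · intro i j
    by_cases hij : i = j
    · subst hij
      exact h7 V R₁ R₂ ξ (p i) (q i) (q i) hT (hG i) (hp.dense i) (hq i) (hq i) (P i) _ (hP i)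
        (hQ i)
    · exact h6 V R₁ R₂ ξ (p i) (q i) (p j) (q j) hT (hG i) (hG j) (hp.lat i j hij) (P i) _
        (hP i) (hQ j)

end Vale.Agent.P092.SR
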