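import Vale.Agent.P092.SR.Multi

/-!
P092, project B: assembly for any finite number of places and all `t`; the antiunitary flip goes
from the triple `(V, R₁, R₂)` on `ℋ` to a second triple `(V', R₁', R₂')` on `ℋ'`.
-/

set_option linter.all false

open scoped InnerProductSpace
open Filter Topology ContinuousLinearMap MeasureTheory

namespace Vale.Agent.P092.SR

open Vale.Agent.P092.H160

/-- The antiunitary flip `J : ℋ → ℋ'` (with inverse `J'`) exchanging the source representation and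
the first target representation, and carrying the commutant of `R₂` to the commutant of `R₂'` and
conversely. -/
structure Flp {Γ ℋ ℋ' : Type} [Group Γ] [NormedAddCommGroup ℋ] [InnerProductSpace ℂ ℋ]
    [CompleteSpace ℋ] [NormedAddCommGroup ℋ'] [InnerProductSpace ℂ ℋ'] [CompleteSpace ℋ']
    (V R₁ R₂ : Γ →* (ℋ →L[ℂ] ℋ)) (V' R₁' R₂' : Γ →* (ℋ' →L[ℂ] ℋ')) (J : ℋ → ℋ')
    (J' : ℋ' → ℋ) : Prop where
  add : ∀ x y, J (x + y) = J x + J y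
  smul : ∀ (c : ℂ) x, J (c • x) = (starRingEnd ℂ) c • J x
  norm : ∀ x, ‖J x‖ = ‖x‖
  add' : ∀ x y, J' (x + y) = J' x + J' y
  smul' : ∀ (c : ℂ) x, J' (c • x) = (starRingEnd ℂ) c • J' x
  norm' : ∀ x, ‖J' x‖ = ‖x‖
  inv : ∀ x, J' (J x) = x
  inv' : ∀ x, J (J' x) = x
  V : ∀ g x, J (V g x) = R₁' g (J x)
  R : ∀ g x, J (R₁ g x) = V' g (J x)
  comm : ∀ (x : ℋ →L[ℂ] ℋ) (y : ℋ' →L[ℂ] ℋ'), (∀ v, y v = J (x (J' v))) →
    (∀ g, x * R₂ g = R₂ g * x) → ∀ g, y * R₂' g = R₂' g * y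
  comm' : ∀ (x : ℋ' →L[ℂ] ℋ') (y : ℋ →L[ℂ] ℋ), (∀ v, y v = J' (x (J v))) →
    (∀ g, x * R₂' g = R₂' g * x) → ∀ g, y * R₂ g = R₂ g * y

/-- The unitary `F` exchanging the legs. -/
structure Swp {Γ ℋ : Type} [Group Γ] [NormedAddCommGroup ℋ] [InnerProductSpace ℂ ℋ]
    [CompleteSpace ℋ] (V R₁ R₂ : Γ →* (ℋ →L[ℂ] ℋ)) (F : ℋ → ℋ) : Prop where
  add : ∀ x y, F (x + y) = F x + F y
  smul : ∀ (c : ℂ) x, F (c • x) = c • F x
  norm : ∀ x, ‖F x‖ = ‖x‖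
  inv : ∀ x, F (F x) = x
  V : ∀ g x, F (V g x) = V g (F x)
  R₁ : ∀ g x, F (R₁ g x) = R₂ g (F x)

section flp

variable {Γ ℋ ℋ' : Type} [Group Γ] [NormedAddCommGroup ℋ] [InnerProductSpace ℂ ℋ]
    [CompleteSpace ℋ] [NormedAddCommGroup ℋ'] [InnerProductSpace ℂ ℋ'] [CompleteSpace ℋ']
    {V R₁ R₂ : Γ →* (ℋ →L[ℂ] ℋ)} {V' R₁' R₂' : Γ →* (ℋ' →L[ℂ] ℋ')} {J : ℋ → ℋ'} {J' : ℋ' → ℋ}

theorem Flp.symm (h : Flp V R₁ R₂ V' R₁' R₂' J J') : Flp V' R₁' R₂' V R₁ R₂ J' J where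
  add := h.add'
  smul := h.smul'
  norm := h.norm'
  add' := h.add
  smul' := h.smul
  norm' := h.norm
  inv := h.inv'
  inv' := h.inv
  V g x := by
    have := h.R g (J' x)
    rw [h.inv'] at this
    rw [← this, h.inv]
  R g x := by
    have := h.V g (J' x)
    rw [h.inv'] at this
    rw [← this, h.inv]
  comm := h.comm'
  comm' := h.comm

/-- `J x J'` -/
noncomputable def tJ (h : Flp V R₁ R₂ V' R₁' R₂' J J') (x : ℋ →L[ℂ] ℋ) : ℋ' →L[ℂ] ℋ' :=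
  LinearMap.mkContinuous
    { toFun := fun v => J (x (J' v))
      map_add' := fun v w => by rw [h.add', map_add, h.add]
      map_smul' := fun c v => by
        rw [h.smul', map_smul, h.smul, Complex.conj_conj, RingHom.id_apply] } ‖x‖ fun v => by
    change ‖J (x (J' v))‖ ≤ _
    rw [h.norm]
    exact (x.le_opNorm _).trans (by rw [h.norm'])

variable (h : Flp V R₁ R₂ V' R₁' R₂' J J')

include h

theorem tJ_apply (x : ℋ →L[ℂ] ℋ) (v : ℋ') : tJ h x v = J (x (J' v)) := rfl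

theorem tJ_tJ (x : ℋ →L[ℂ] ℋ) : tJ h.symm (tJ h x) = x := by
  ext v
  rw [tJ_apply, tJ_apply, h.inv, h.inv]

theorem tJ_mul (x y : ℋ →L[ℂ] ℋ) : tJ h (x * y) = tJ h x * tJ h y := by
  ext v
  change J (x (y (J' v))) = J (x (J' (J (y (J' v)))))
  rw [h.inv]

theorem tJ_smul_one (c : ℂ) : tJ h (c • (1 : ℋ →L[ℂ] ℋ)) =
    (starRingEnd ℂ) c • (1 : ℋ' →L[ℂ] ℋ') := by
  ext v
  change J (c • J' v) = (starRingEnd ℂ) c • v
  rw [h.smul, h.inv']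

theorem tJ_V (g : Γ) : tJ h (V g) = R₁' g := by
  ext v
  rw [tJ_apply, h.V, h.inv']

theorem tJ_R₁ (g : Γ) : tJ h (R₁ g) = V' g := by
  ext v
  rw [tJ_apply, h.R, h.inv']

theorem Flp.neg (x : ℋ) : J (-x) = -J x := by
  have := h.smul (-1) x
  simpa using this

theorem Flp.zero : J 0 = 0 := by
  have := h.norm 0
  rwa [norm_zero, norm_eq_zero] at this

theorem Flp.inner (x y : ℋ) : ⟪J x, J y⟫_ℂ = ⟪y, x⟫_ℂ := by
  have hsub : ∀ a b, J (a - b) = J a - J b := fun a b => by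
    rw [sub_eq_add_neg, h.add, h.neg, ← sub_eq_add_neg]
  have e1 : J (Complex.I • y) = -(Complex.I • J y) := by
    rw [h.smul, Complex.conj_I, neg_smul]
  rw [inner_eq_sum_norm_sq_div_four, inner_eq_sum_norm_sq_div_four (𝕜 := ℂ) y x]
  have a1 : ‖J x + J y‖ = ‖y + x‖ := by rw [← h.add, h.norm, add_comm]
  have a2 : ‖J x - J y‖ = ‖y - x‖ := by rw [← hsub, h.norm, norm_sub_rev]
  have a3 : ‖J x - Complex.I • J y‖ = ‖y - Complex.I • x‖ := by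
    have : J x - Complex.I • J y = J (x + Complex.I • y) := by
      rw [h.add, e1, sub_eq_add_neg]
    rw [this, h.norm]
    have : y - Complex.I • x = -(Complex.I • (x + Complex.I • y)) := by
      rw [smul_add, smul_smul, Complex.I_mul_I, neg_smul, one_smul]; abel
    rw [this, norm_neg, norm_smul, Complex.norm_I, one_mul]
  have a4 : ‖J x + Complex.I • J y‖ = ‖y + Complex.I • x‖ := by
    have : J x + Complex.I • J y = J (x - Complex.I • y) := by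
      rw [hsub, e1, sub_neg_eq_add]
    rw [this, h.norm]
    have : y + Complex.I • x = Complex.I • (x - Complex.I • y) := by
      rw [smul_sub, smul_smul, Complex.I_mul_I, neg_smul, one_smul]; abel
    rw [this, norm_smul, Complex.norm_I, one_mul]
  have r : (RCLike.I : ℂ) = Complex.I := rfl
  rw [r, a1, a2, a3, a4]

theorem tJ_form' (x : ℋ →L[ℂ] ℋ) (v : ℋ') : ⟪v, tJ h x v⟫_ℂ = ⟪x (J' v), J' v⟫_ℂ := by
  rw [tJ_apply]
  conv_lhs => rw [← h.inv' v]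
  rw [h.inner, h.inv']

theorem tJ_form (x : ℋ →L[ℂ] ℋ) (v : ℋ') :
    (⟪v, tJ h x v⟫_ℂ).re = (⟪J' v, x (J' v)⟫_ℂ).re := by
  rw [tJ_form', ← inner_conj_symm, Complex.conj_re]

theorem tJ_nonneg {x : ℋ →L[ℂ] ℋ} (hx : 0 ≤ x) : 0 ≤ tJ h x := by
  rw [nonneg_iff_isPositive, isPositive_iff_complex] at hx ⊢
  intro v
  have e : ⟪tJ h x v, v⟫_ℂ = ⟪J' v, x (J' v)⟫_ℂ := by
    rw [← inner_conj_symm, tJ_form', inner_conj_symm]
  obtain ⟨h1, h2⟩ := hx (J' v)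
  have e2 : ⟪J' v, x (J' v)⟫_ℂ = ⟪x (J' v), J' v⟫_ℂ := by
    rw [← inner_conj_symm, ← h1]
    simp
  rw [e, e2]
  exact ⟨h1, h2⟩

theorem tJ_ne {x : ℋ →L[ℂ] ℋ} (hx : x ≠ 0) : tJ h x ≠ 0 := by
  intro h0
  apply hx
  rw [← tJ_tJ h x, h0]
  ext v
  exact h.symm.zero

variable {H H' : Type} [Group H] [Group H'] {pr : Γ →* H} {pr' : Γ →* H'}

theorem tJ_Qs {K' : Subgroup H} {K : Subgroup H'} {x : ℋ →L[ℂ] ℋ}
    (hx : Qs pr pr' V R₁ (Set.range R₂) K' K x) :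
    Qs pr' pr V' R₁' (Set.range R₂') K K' (tJ h x) := by
  refine ⟨fun g hg => ?_, fun g hg => ?_, ?_⟩
  · rw [← tJ_R₁ h g, ← tJ_mul, ← tJ_mul, hx.2.1 g hg]
  · rw [← tJ_V h g, ← tJ_mul, ← tJ_mul, hx.1 g hg]
  · rintro _ ⟨g, rfl⟩
    exact h.comm x (tJ h x) (fun v => rfl) (fun g => hx.2.2 _ ⟨g, rfl⟩) g

theorem tJ_IntR {K : Subgroup H'} {x : ℋ →L[ℂ] ℋ} {c : ℝ} (hx : IntR pr' R₁ K x c) :
    IntR pr' V' K (tJ h x) c := by
  intro ζ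
  have := hx (J' ζ)
  rw [h.norm'] at this
  refine this.congr_fun fun q => ?_
  rw [tJ_form, h.symm.V]

theorem Flp.ergS {K : Subgroup H'}
    (he : ∀ x, Qs pr' pr V' R₁' (Set.range R₂') K ⊤ x → ∃ c : ℂ, x = c • (1 : ℋ' →L[ℂ] ℋ'))
    {x : ℋ →L[ℂ] ℋ} (hx : Qs pr pr' V R₁ (Set.range R₂) ⊤ K x) :
    ∃ c : ℂ, x = c • (1 : ℋ →L[ℂ] ℋ) := by
  obtain ⟨c, hc⟩ := he _ (tJ_Qs h hx)
  refine ⟨(starRingEnd ℂ) c, ?_⟩
  rw [← tJ_tJ h x, hc, tJ_smul_one]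

end flp

section swp

variable {Γ ℋ : Type} [Group Γ] [NormedAddCommGroup ℋ] [InnerProductSpace ℂ ℋ]
    [CompleteSpace ℋ] {V R₁ R₂ : Γ →* (ℋ →L[ℂ] ℋ)} {F : ℋ → ℋ}

/-- `F x F` -/
noncomputable def sF (h : Swp V R₁ R₂ F) (x : ℋ →L[ℂ] ℋ) : ℋ →L[ℂ] ℋ :=
  LinearMap.mkContinuous
    { toFun := fun v => F (x (F v))
      map_add' := fun v w => by rw [h.add, map_add, h.add]
      map_smul' := fun c v => by
        rw [h.smul, map_smul, h.smul, RingHom.id_apply] } ‖x‖ fun v => by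
    change ‖F (x (F v))‖ ≤ _
    rw [h.norm]
    exact (x.le_opNorm _).trans (by rw [h.norm])

variable (h : Swp V R₁ R₂ F)

include h

theorem sF_apply (x : ℋ →L[ℂ] ℋ) (v : ℋ) : sF h x v = F (x (F v)) := rfl

theorem sF_sF (x : ℋ →L[ℂ] ℋ) : sF h (sF h x) = x := by
  ext v
  rw [sF_apply, sF_apply, h.inv, h.inv]

theorem sF_mul (x y : ℋ →L[ℂ] ℋ) : sF h (x * y) = sF h x * sF h y := by
  ext v
  change F (x (y (F v))) = F (x (F (F (y (F v)))))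
  rw [h.inv]

theorem sF_add (x y : ℋ →L[ℂ] ℋ) : sF h (x + y) = sF h x + sF h y := by
  ext v
  change F (x (F v) + y (F v)) = F (x (F v)) + F (y (F v))
  rw [h.add]

theorem sF_smul (c : ℂ) (x : ℋ →L[ℂ] ℋ) : sF h (c • x) = c • sF h x := by
  ext v
  change F (c • x (F v)) = c • F (x (F v))
  rw [h.smul]

theorem sF_V (g : Γ) : sF h (V g) = V g := by
  ext v
  rw [sF_apply, h.V, h.inv]

theorem sF_R₁ (g : Γ) : sF h (R₁ g) = R₂ g := by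
  ext v
  rw [sF_apply, h.R₁, h.inv]

theorem sF_R₂ (g : Γ) : sF h (R₂ g) = R₁ g := by
  rw [← sF_R₁ h g, sF_sF]

theorem Swp.inner (x y : ℋ) : ⟪F x, F y⟫_ℂ = ⟪x, y⟫_ℂ := by
  let Fe : ℋ →ₗᵢ[ℂ] ℋ :=
    { toFun := F, map_add' := h.add, map_smul' := fun c v => by
        rw [h.smul, RingHom.id_apply], norm_map' := h.norm }
  exact Fe.inner_map_map x y

theorem sF_adjoint (x : ℋ →L[ℂ] ℋ) : adjoint (sF h x) = sF h (adjoint x) := by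
  symm
  rw [ContinuousLinearMap.eq_adjoint_iff]
  intro v w
  rw [sF_apply, sF_apply, ← h.inner, h.inv, adjoint_inner_left, ← h.inner (F v), h.inv]

variable {H H' : Type} [Group H] [Group H'] {pr : Γ →* H} {pr' : Γ →* H'}

theorem sF_Qs {K' : Subgroup H} {K : Subgroup H'} {x : ℋ →L[ℂ] ℋ}
    (hx : Qs pr pr' V R₂ (Set.range R₁) K' K x) :
    Qs pr pr' V R₁ (Set.range R₂) K' K (sF h x) := by
  refine ⟨fun g hg => ?_, fun g hg => ?_, ?_⟩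
  · rw [← sF_V h g, ← sF_mul, ← sF_mul, hx.1 g hg]
  · rw [← sF_R₂ h g, ← sF_mul, ← sF_mul, hx.2.1 g hg]
  · rintro _ ⟨g, rfl⟩
    rw [← sF_R₁ h g, ← sF_mul, ← sF_mul, hx.2.2 _ ⟨g, rfl⟩]

/-- the family for the second leg -/
theorem sF_PFam [TopologicalSpace H] {p q : Γ →* H} {P : Set H → (ℋ →L[ℂ] ℋ)}
    (hP : PFam p q V R₁ (Set.range R₂) P) :
    PFam p q V R₂ (Set.range R₁) (fun C => sF h (P C)) where
  adj C hC := by rw [sF_adjoint, hP.adj C hC]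
  mul C D hC hD := by rw [← sF_mul, hP.mul C D hC hD]
  add C D hC hD hCD := by rw [hP.add C D hC hD hCD, sF_add]
  covS g C hC := by
    rw [← hP.covS g C hC, sF_mul, sF_mul, sF_V, sF_V]
  covT g C hC := by
    rw [← hP.covT g C hC, sF_mul, sF_mul, sF_R₁, sF_R₁]
  comm := by
    rintro _ ⟨g, rfl⟩ C hC
    rw [← sF_R₂ h g, ← sF_mul, ← sF_mul, hP.comm _ ⟨g, rfl⟩ C hC]
  nondeg ζ hζ := by
    have h0 : F 0 = 0 := by
      have := h.norm 0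
      rwa [norm_zero, norm_eq_zero] at this
    have h1 : F ζ = 0 := hP.nondeg (F ζ) fun C hC => by
      have := hζ C hC
      rw [sF_apply] at this
      rw [← h.inv (P C (F ζ)), this, h0]
    rw [← h.inv ζ, h1, h0]
  max K' K hK' hK y hy a := by
    obtain ⟨c, hc⟩ := hP.max K' K hK' hK _ (sF_Qs h hy) a
    refine ⟨c, ?_⟩
    rw [← sF_smul, ← hc, sF_mul, sF_sF]

end swp

section main

variable {ι ι' I Γ ℋ ℋ' : Type} [Fintype ι] [Fintype ι'] [Fintype I] [Group Γ]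
  [NormedAddCommGroup ℋ] [InnerProductSpace ℂ ℋ] [CompleteSpace ℋ]
  [NormedAddCommGroup ℋ'] [InnerProductSpace ℂ ℋ'] [CompleteSpace ℋ']
  {H : I → Type} [∀ i, Group (H i)] [∀ i, TopologicalSpace (H i)]
  {V R₁ R₂ : Γ →* (ℋ →L[ℂ] ℋ)} {ξ : ι → ℋ} {V' R₁' R₂' : Γ →* (ℋ' →L[ℂ] ℋ')} {ξ' : ι' → ℋ'}
  {J : ℋ → ℋ'} {J' : ℋ' → ℋ} {F : ℋ → ℋ}

/-- one leg, one pair of places -/
theorem leg_ofT {G G' : Type} [Group G] [TopologicalSpace G] [Group G'] [TopologicalSpace G']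
    {p : Γ →* G} {p' : Γ →* G'} (hT : Tri V R₁ R₂ ξ) (hJ : Flp V R₁ R₂ V' R₁' R₂' J J')
    (hp : DenseRange p) (hp' : DenseRange p') (he : ErgAt V R₁ R₂ p)
    (he' : ErgAt V' R₁' R₂' p')
    (hf : FinI p p' V R₁ (Set.range R₂)) : Leg p p' V R₁ (Set.range R₂) where
  dense := hp
  dense' := hp'
  adjS := hT.adjV
  adjT := hT.adj₁
  comm := hT.comm₁
  scS := by rintro _ ⟨g, rfl⟩ k; exact (hT.comm₂ k g).symm
  scT := by rintro _ ⟨g, rfl⟩ k; exact (hT.comm₁₂ k g).symm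
  sc_adj := by rintro _ ⟨g, rfl⟩; exact ⟨g⁻¹, (hT.adj₂ g).symm⟩
  ergT U hU x hx := he.qs hU hx
  ergS U hU x hx := hJ.ergS (fun y hy => he'.qs hU hy) hx
  finT := hf

theorem match_eqT (hM : MatchRStmt) (hT : Tri V R₁ R₂ ξ) (hJ : Flp V R₁ R₂ V' R₁' R₂' J J')
    (hG : ∀ i, GoodGrp (H i)) {p : ∀ i, Γ →* H i} (hp : Plc p) {i j i' : I}
    (h1 : FinI (p i) (p j) V R₁ (Set.range R₂))
    (h2 : FinI (p j) (p i') V' R₁' (Set.range R₂')) : i = i' := by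
  by_contra hne
  haveI := hp.countable
  obtain ⟨K₁, L₁, hK₁, hL₁, x, hx, hx0, hxn, c, hc⟩ := h1
  obtain ⟨K₂, L₂, hK₂, hL₂, y, hy, hy0, hyn, d, hd⟩ := h2
  rcases hM V R₁ R₂ ξ (p i) (p i') (p j) hT (hG i) (hG i') (hG j) (hp.lat i i' hne) (hp.dense i)
    (hp.dense i') K₁ L₂ L₁ K₂ hK₁ hL₂ hL₁ hK₂ x (tJ hJ.symm y) hx (tJ_Qs hJ.symm hy) hx0
    (tJ_nonneg hJ.symm hy0) c d hc (tJ_IntR hJ.symm hd) with h | h
  · exact hxn h
  · exact tJ_ne hJ.symm hyn h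

/-- the families of leg 1 -/
theorem legsT (hM : MatchRStmt) (hA : ThAStmt) (hT : Tri V R₁ R₂ ξ) (hT' : Tri V' R₁' R₂' ξ')
    (hJ : Flp V R₁ R₂ V' R₁' R₂' J J')
    (hG : ∀ i, GoodGrp (H i)) {p : ∀ i, Γ →* H i} (hp : Plc p)
    (he : ∀ i, ErgAt V R₁ R₂ (p i)) (he' : ∀ i, ErgAt V' R₁' R₂' (p i))
    (hf : ∀ i, ∃ j, FinI (p i) (p j) V R₁ (Set.range R₂))
    (hf' : ∀ i, ∃ j, FinI (p i) (p j) V' R₁' (Set.range R₂')) :
    ∃ (q : ∀ i, Γ →* H i) (P : ∀ i, Set (H i) → (ℋ →L[ℂ] ℋ)), (∀ i, DenseRange (q i)) ∧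
      (∃ K : ∀ i, Subgroup (H i), (∀ i, COS (K i)) ∧ ∀ g, (∀ i, q i g ∈ K i) → g = 1) ∧
      ∀ i, PFam (p i) (q i) V R₁ (Set.range R₂) (P i) := by
  haveI := hp.countable
  choose σ hσ using hf
  choose σ' hσ' using hf'
  have hinv : ∀ i, σ' (σ i) = i := fun i =>
    (match_eqT hM hT hJ hG hp (hσ i) (hσ' (σ i))).symm
  have hinv' : ∀ i, σ (σ' i) = i := fun i =>
    (match_eqT hM hT' hJ.symm hG hp (hσ' i) (hσ (σ' i))).symm
  have hta : ∀ i, ∃ (ψ : H (σ i) ≃ₜ* H i) (P : Set (H i) → (ℋ →L[ℂ] ℋ)),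
      PFam (p i) (ψ.toMulEquiv.toMonoidHom.comp (p (σ i))) V R₁ (Set.range R₂) P := fun i =>
    hA (p i) (p (σ i)) V R₁ (Set.range R₂) (hG i) (hG (σ i))
      (leg_ofT hT hJ (hp.dense i) (hp.dense (σ i)) (he i) (he' (σ i)) (hσ i))
  choose ψ P hP using hta
  obtain ⟨K, hK1, hK2⟩ := hp.small
  refine ⟨fun i => (ψ i).toMulEquiv.toMonoidHom.comp (p (σ i)), P, fun i => ?_, ?_, hP⟩
  · exact (ψ i).toHomeomorph.surjective.denseRange.comp (hp.dense (σ i))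
      (ψ i).toHomeomorph.continuous
  · refine ⟨fun i => (K (σ i)).map (ψ i).toMulEquiv.toMonoidHom, fun i => ⟨?_, ?_⟩,
      fun g hg => ?_⟩
    · exact (hK1 (σ i)).1.image (ψ i).continuous
    · exact (ψ i).toHomeomorph.isOpenMap _ (hK1 (σ i)).2
    · refine hK2 g fun i => ?_
      obtain ⟨a, ha, ha2⟩ := hg (σ' i)
      have e1 : a = p (σ (σ' i)) g := (ψ (σ' i)).injective ha2
      have e2 : p (σ (σ' i)) g ∈ K (σ (σ' i)) := e1 ▸ ha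
      rw [hinv' i] at e2
      exact e2

/-- **The core of project B**, for any finite number of places and all `t`. -/
theorem overlapT (hM : MatchRStmt) (hA : ThAStmt) (h5 : C5RStmt) (h6 : C6RStmt) (h7 : C7RStmt)
    (hT : Tri V R₁ R₂ ξ) (hTs : Tri V R₂ R₁ ξ) (hT' : Tri V' R₁' R₂' ξ')
    (hJ : Flp V R₁ R₂ V' R₁' R₂' J J') (hF : Swp V R₁ R₂ F)
    (hG : ∀ i, GoodGrp (H i)) {p : ∀ i, Γ →* H i} (hp : Plc p)
    (he : ∀ i, ErgAt V R₁ R₂ (p i)) (he' : ∀ i, ErgAt V' R₁' R₂' (p i))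
    (hf : ∀ i, ∃ j, FinI (p i) (p j) V R₁ (Set.range R₂))
    (hf' : ∀ i, ∃ j, FinI (p i) (p j) V' R₁' (Set.range R₂')) :
    ∃ (r : ℕ) (ζ : Fin r → ℋ) (κ : ℝ), 0 < κ ∧ (∀ i, ‖ζ i‖ = 1) ∧
      ∀ g, ∃ i j a b, κ ≤ ‖⟪V g (ζ i), R₁ a (R₂ b (ζ j))⟫_ℂ‖ := by
  haveI := hp.countable
  obtain ⟨q, P, hq, hK, hP⟩ := legsT hM hA hT hT' hJ hG hp he he' hf hf'
  have hQ : ∀ i, PFam (p i) (q i) V R₂ (Set.range R₁) (fun C => sF hF (P i C)) := fun i =>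
    sF_PFam hF (hP i)
  refine end_multi hG hT hP hQ ?_ ?_ ?_ hK hK
  · exact fun i j hij => h5 V R₁ R₂ ξ (p i) (q i) (p j) (q j) hT (hG i) (hG j)
      (hp.lat i j hij) (P i) (P j) (hP i) (hP j)
  · exact fun i j hij => h5 V R₂ R₁ ξ (p i) (q i) (p j) (q j) hTs (hG i) (hG j)
      (hp.lat i j hij) _ _ (hQ i) (hQ j)
  · intro i j
    by_cases hij : i = j
    · subst hij
      exact h7 V R₁ R₂ ξ (p i) (q i) (q i) hT (hG i) (hp.dense i) (hq i) (hq i) (P i) _ (hP i)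
        (hQ i)
    · exact h6 V R₁ R₂ ξ (p i) (q i) (p j) (q j) hT (hG i) (hG j) (hp.lat i j hij) (P i) _
        (hP i) (hQ j)

end main

end Vale.Agent.P092.SR
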